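import Mathlib

namespace Vale.Agent.P254.One

open MeasureTheory Set Filter Topology

noncomputable section

def phi (z : ℝ) : ℝ := Real.exp (-(z ^ 2 / 2))

theorem phi_pos (z : ℝ) : 0 < phi z := Real.exp_pos _

theorem phi_cont : Continuous phi := by unfold phi; fun_prop

theorem phi_hd (z : ℝ) : HasDerivAt phi (-(z * phi z)) z := by
  have h1 : HasDerivAt (fun z : ℝ => -(z ^ 2 / 2)) (-z) z := by
    have h := (((hasDerivAt_id z).pow 2).div_const 2).neg
    exact h.congr_deriv (by simp)
  have h2 := h1.exp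
  exact h2.congr_deriv (by simp only [phi]; ring)

theorem phi_int : Integrable phi := by
  have := integrable_exp_neg_mul_sq (b := 1/2) (by norm_num)
  refine this.congr (Eventually.of_forall fun z => ?_)
  simp only [phi]
  ring_nf

def G0 (z : ℝ) : ℝ := (∫ u in Ioi (0:ℝ), phi u) - ∫ u in (0:ℝ)..z, phi u

theorem G0_hd (z : ℝ) : HasDerivAt G0 (-(phi z)) z := by
  have h := intervalIntegral.integral_hasDerivAt_right (phi_int.intervalIntegrable (a := 0) (b := z))
    (phi_cont.stronglyMeasurableAtFilter volume (𝓝 z)) phi_cont.continuousAt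
  have := h.const_sub (∫ u in Ioi (0:ℝ), phi u)
  exact this

theorem G0_tendsto : Tendsto G0 atTop (𝓝 0) := by
  have h := intervalIntegral_tendsto_integral_Ioi (0:ℝ) phi_int.integrableOn tendsto_id
  have h2 := (tendsto_const_nhds (x := ∫ u in Ioi (0:ℝ), phi u)).sub h
  rw [sub_self] at h2
  exact h2

/-- a strictly decreasing function on a ray with limit zero is positive -/
theorem pos_of_deriv {f f' : ℝ → ℝ} {a : ℝ} (hd : ∀ z, a < z → HasDerivAt f (f' z) z)
    (hn : ∀ z, a < z → f' z < 0) (ht : Tendsto f atTop (𝓝 0)) {z : ℝ} (hz : a < z) : 0 < f z := by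
  have hanti : StrictAntiOn f (Ici z) := by
    refine strictAntiOn_of_deriv_neg (convex_Ici z) ?_ ?_
    · intro y hy
      exact (hd y (lt_of_lt_of_le hz hy)).continuousAt.continuousWithinAt
    · intro y hy
      rw [interior_Ici] at hy
      rw [(hd y (lt_trans hz hy)).deriv]
      exact hn y (lt_trans hz hy)
  have h1 : 0 ≤ f (z + 1) := by
    refine le_of_tendsto ht ?_
    filter_upwards [eventually_ge_atTop (z + 1)] with y hy
    rcases eq_or_lt_of_le hy with rfl | hy'
    · exact le_rfl
    · exact (hanti (by simp) (by simp only [mem_Ici]; linarith) hy').le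
  have h2 : f (z + 1) < f z := hanti (by simp) (by simp) (by linarith)
  linarith

theorem phi_tendsto : Tendsto phi atTop (𝓝 0) := by
  unfold phi
  refine Real.tendsto_exp_neg_atTop_nhds_zero.comp ?_
  have : Tendsto (fun z : ℝ => z ^ 2) atTop atTop := tendsto_pow_atTop (by norm_num)
  exact this.atTop_div_const (by norm_num)

theorem G0_pos (z : ℝ) : 0 < G0 z :=
  pos_of_deriv (a := z - 1) (fun y _ => G0_hd y) (fun y _ => by have := phi_pos y; linarith)
    G0_tendsto (by linarith)

def G1 (z : ℝ) : ℝ := phi z - z * G0 z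

theorem G1_hd (z : ℝ) : HasDerivAt G1 (-(G0 z)) z := by
  have h := (phi_hd z).sub ((hasDerivAt_id z).mul (G0_hd z))
  exact h.congr_deriv (by simp only [id]; ring)

theorem aux_pos {z : ℝ} (hz : 0 < z) : 0 < phi z / z - G0 z := by
  refine pos_of_deriv (a := 0) (f := fun z => phi z / z - G0 z) (f' := fun z => -(phi z / z ^ 2)) ?_ ?_ ?_ hz
  · intro y hy
    have h := ((phi_hd y).div (hasDerivAt_id y) hy.ne').sub (G0_hd y)
    refine h.congr_deriv ?_
    simp only [id]
    field_simp
    ring
  · intro y hy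
    have := phi_pos y
    have : 0 < phi y / y ^ 2 := by positivity
    linarith
  · have h1 : Tendsto (fun z : ℝ => phi z / z) atTop (𝓝 0) := phi_tendsto.div_atTop tendsto_id
    have := h1.sub G0_tendsto
    rw [sub_zero] at this
    exact this

theorem G1_pos (z : ℝ) : 0 < G1 z := by
  unfold G1
  rcases le_or_gt z 0 with h | h
  · have := phi_pos z
    have := G0_pos z
    nlinarith
  · have := aux_pos h
    have h2 : z * (phi z / z - G0 z) = phi z - z * G0 z := by field_simp
    rw [← h2]; positivity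

theorem zG0_le {z : ℝ} : z * G0 z ≤ phi z := by
  have := G1_pos z
  unfold G1 at this
  linarith

theorem G1_tendsto_mul : Tendsto (fun z => z * G1 z) atTop (𝓝 0) := by
  have hz : Tendsto (fun z : ℝ => z * phi z) atTop (𝓝 0) := by
    have h := Real.tendsto_pow_mul_exp_neg_atTop_nhds_zero 1
    refine squeeze_zero' ?_ ?_ h
    · filter_upwards [eventually_ge_atTop 0] with z hz
      exact mul_nonneg hz (phi_pos z).le
    · filter_upwards [eventually_ge_atTop 2] with z hz
      simp only [pow_one, phi]
      refine mul_le_mul_of_nonneg_left ?_ (by linarith)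
      rw [Real.exp_le_exp]
      nlinarith
  refine squeeze_zero' ?_ ?_ hz
  · filter_upwards [eventually_ge_atTop 0] with z hz
    exact mul_nonneg hz (G1_pos z).le
  · filter_upwards [eventually_ge_atTop 0] with z hz
    refine mul_le_mul_of_nonneg_left ?_ hz
    unfold G1
    have := mul_nonneg hz (G0_pos z).le
    linarith

def G2 (z : ℝ) : ℝ := G0 z - z * G1 z

theorem G2_hd (z : ℝ) : HasDerivAt G2 (-(2 * G1 z)) z := by
  have h := (G0_hd z).sub ((hasDerivAt_id z).mul (G1_hd z))
  refine h.congr_deriv ?_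
  simp only [id, G1]
  ring

theorem G2_tendsto : Tendsto G2 atTop (𝓝 0) := by
  have := G0_tendsto.sub G1_tendsto_mul
  rw [sub_zero] at this
  exact this

theorem G2_pos (z : ℝ) : 0 < G2 z :=
  pos_of_deriv (a := z - 1) (fun y _ => G2_hd y) (fun y _ => by have := G1_pos y; linarith)
    G2_tendsto (by linarith)

/-- hazard rate, mean, variance -/
def rr (z : ℝ) : ℝ := phi z / G0 z
def mm (z : ℝ) : ℝ := G1 z / G0 z
def bb (z : ℝ) : ℝ := 1 - rr z * mm z

theorem rr_pos (z : ℝ) : 0 < rr z := div_pos (phi_pos z) (G0_pos z)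
theorem mm_pos (z : ℝ) : 0 < mm z := div_pos (G1_pos z) (G0_pos z)

theorem rr_eq (z : ℝ) : rr z = mm z + z := by
  have := (G0_pos z).ne'
  unfold rr mm G1
  field_simp
  ring

theorem rr_hd (z : ℝ) : HasDerivAt rr (rr z * mm z) z := by
  have h := (phi_hd z).div (G0_hd z) (G0_pos z).ne'
  refine h.congr_deriv ?_
  have := (G0_pos z).ne'
  simp only [rr, mm, G1]
  field_simp
  ring

theorem mm_hd (z : ℝ) : HasDerivAt mm (-(bb z)) z := by
  have h := (rr_hd z).sub (hasDerivAt_id z)
  have h2 : (fun z => rr z - z) = mm := by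
    funext y; rw [rr_eq]; ring
  have h3 : HasDerivAt (fun z => rr z - z) (rr z * mm z - 1) z := h
  rw [h2] at h3
  refine h3.congr_deriv ?_
  unfold bb; ring

theorem bb_hd (z : ℝ) : HasDerivAt bb (-(rr z * (mm z ^ 2 - bb z))) z := by
  have h := ((rr_hd z).mul (mm_hd z)).const_sub 1
  refine h.congr_deriv ?_
  ring

theorem one_sub_zm (z : ℝ) : 0 < 1 - z * mm z := by
  have h := G2_pos z
  have h0 := (G0_pos z)
  have : 1 - z * mm z = G2 z / G0 z := by
    unfold G2 mm; field_simp
  rw [this]; positivity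

end

end Vale.Agent.P254.One
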