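import Mathlib

/-!
P254, one-dimensional facts: the two-point inequality `c_ij ≤ √(c_ii c_jj)` (fact F2 / (C2)).

Abstract curve `z ↦ (x z, q z)` with `x = 1/β - 1`, `q = β/(m²-β)`,
`x' = ω > 0`, `q' = ω q(1+q)(2q-x)/(x(1+x))`.
-/

namespace Vale.Agent.P254.One.F2

open Filter Set Topology

noncomputable section

/-- the data of the one-dimensional extremal curve -/
structure Curve (x q ω : ℝ → ℝ) : Prop where
  hx : ∀ z, HasDerivAt x (ω z) z
  hq : ∀ z, HasDerivAt q (ω z * (q z * (1 + q z) * (2 * q z - x z) / (x z * (1 + x z)))) z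
  ω_pos : ∀ z, 0 < ω z
  x_pos : ∀ z, 0 < x z
  g_pos : ∀ z, x z < 2 * q z
  g_lt : ∀ z, 2 * q z < 2 + x z
  x_top : Tendsto x atTop atTop

def NN (T w : ℝ) : ℝ :=
  (108*T + 76*T^2 + 7*T^3)
    + (-200 - 16*T + 22*T^2 + 2*T^3)*w
    + (-400 - 156*T - 4*T^2)*w^2
    + (-200 - 32*T)*w^3

def DD (T w : ℝ) : ℝ := 2*T^2*(10+T)*(2+T+2*w)

def SS (T w : ℝ) : ℝ :=
  (-8640*T - 17312*T^2 - 11880*T^3 - 3252*T^4 - 354*T^5 - 13*T^6)
    + (16000 + 8000*T - 13920*T^2 - 10120*T^3 - 1456*T^4 - 38*T^5 + 2*T^6)*w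
    + (64000 + 82400*T + 33040*T^2 + 4720*T^3 + 344*T^4 + 16*T^5)*w^2
    + (96000 + 112800*T + 39520*T^2 + 3280*T^3 + 48*T^4)*w^3
    + (64000 + 53600*T + 10800*T^2 + 320*T^3)*w^4
    + (16000 + 6560*T + 928*T^2)*w^5

def ST (T w : ℝ) : ℝ :=
  (-8640 - 34624*T - 35640*T^2 - 13008*T^3 - 1770*T^4 - 78*T^5)
    + (8000 - 27840*T - 30360*T^2 - 5824*T^3 - 190*T^4 + 12*T^5)*w
    + (82400 + 66080*T + 14160*T^2 + 1376*T^3 + 80*T^4)*w^2
    + (112800 + 79040*T + 9840*T^2 + 192*T^3)*w^3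
    + (53600 + 21600*T + 960*T^2)*w^4
    + (6560 + 1856*T)*w^5

def SW (T w : ℝ) : ℝ :=
  (16000 + 8000*T - 13920*T^2 - 10120*T^3 - 1456*T^4 - 38*T^5 + 2*T^6)
    + (128000 + 164800*T + 66080*T^2 + 9440*T^3 + 688*T^4 + 32*T^5)*w
    + (288000 + 338400*T + 118560*T^2 + 9840*T^3 + 144*T^4)*w^2
    + (256000 + 214400*T + 43200*T^2 + 1280*T^3)*w^3
    + (80000 + 32800*T + 4640*T^2)*w^4

def EE (s w : ℝ) : ℝ :=
  (68486 + 641070*s + 1059114*s^2 + 664605*s^3 + 247086*s^4 + 92077*s^5 + 26014*s^6 + 3079*s^7 + 132*s^8 + 1*s^9)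
    + (1426078 + 3934549*s + 9085225/2*s^2 + 102609277/50*s^3 + 2855549/10*s^4 + 134873/50*s^5 + 453451/50*s^6 + 98959/50*s^7 + 4839/50*s^8 + 1/50*s^9)*w
    + (546932 + 2362944*s + 5669160*s^2 + 204386661/50*s^3 + 28265162/25*s^4 + 1152617/10*s^5 + 97452/25*s^6 + 1031/50*s^7 + 78/25*s^8 + 7/50*s^9)*w^2
    + (520498 + 394252*s + 3368742*s^2 + 77789982/25*s^3 + 24423151/25*s^4 + 2925427/25*s^5 + 161768/25*s^6 + 4352/25*s^7 + 29/5*s^8 + 3/25*s^9)*w^3
    + (8813928 + 8439244*s + 2274556*s^2 + 3450932/25*s^3 + 2083472/25*s^4 + 945988/25*s^5 + 84212/25*s^6 + 1788/25*s^7 + 24/25*s^8)*w^4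
    + (14815664 + 14478576*s + 3619112*s^2 + 826152/25*s^3 + 104448/25*s^4 + 276912/25*s^5 + 13688/25*s^6 + 72/25*s^7)*w^5
    + (9703744 + 9690912*s + 3267680*s^2 + 12011592/25*s^3 + 761024/25*s^4 + 42712/25*s^5 + 96/5*s^6)*w^6
    + (2696480 + 2999104*s + 1154528*s^2 + 3828832/25*s^3 + 108624/25*s^4 + 1392/25*s^5)*w^7
    + (234880 + 366016*s + 110272*s^2 + 11136*s^3)*w^8

def lam (s w : ℝ) : ℝ :=
  (158 + 532*s + 168*s^2 + 11*s^3)
    + (-1490 - 285*s + 47/2*s^2 - 23/50*s^3)*w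
    + (-1220 - 168*s - 3/50*s^3)*w^2
    + (-10 - 12*s)*w^3

lemma cert (s w : ℝ) :
    ST (1+s) w * DD (1+s) w + SW (1+s) w * NN (1+s) w = lam s w * SS (1+s) w + EE s w := by
  unfold ST DD SW NN lam SS EE
  ring

lemma EE_pos {s w : ℝ} (hs : 0 ≤ s) (hw : 0 < w) : 0 < EE s w := by
  unfold EE
  positivity

def den (T : ℝ) : ℝ := 6750 + 11180*T + 1329*T^2
def num (T : ℝ) : ℝ := 3645*T*(1+T)
def WB (T : ℝ) : ℝ := num T / den T
def WBd (T : ℝ) : ℝ := (24603750 + 49207500*T + 35906895*T^2) / (den T)^2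

lemma den_pos {T : ℝ} (hT : 0 ≤ T) : 0 < den T := by unfold den; positivity

lemma WB_hasDeriv {T : ℝ} (hT : 0 ≤ T) : HasDerivAt WB (WBd T) T := by
  have h1 : HasDerivAt num (3645*1*(1+T) + 3645*T*(0+1)) T := by
    unfold num
    exact ((hasDerivAt_id T).const_mul 3645).mul ((hasDerivAt_const T 1).add (hasDerivAt_id T))
  have h2 : HasDerivAt den (0 + 11180*1 + 1329*(2*T)) T := by
    unfold den
    have := ((hasDerivAt_const T (6750:ℝ)).add ((hasDerivAt_id T).const_mul 11180)).add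
      ((hasDerivAt_pow 2 T).const_mul 1329)
    refine this.congr_deriv ?_
    norm_num
  have h3 := h1.div h2 (den_pos hT).ne'
  have h4 : (3645*1*(1+T) + 3645*T*(0+1)) * den T - num T * (0 + 11180*1 + 1329*(2*T))
      = 24603750 + 49207500*T + 35906895*T^2 := by
    unfold num den; ring
  rw [h4] at h3
  exact h3

/-- the barrier is a strict subsolution -/
lemma barrier {T w : ℝ} (hT : 0 < T) (hT1 : T ≤ 1) (hw : 0 < w) (hwB : w ≤ WB T) :
    0 < NN T w - WBd T * DD T w := by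
  have hd := den_pos hT.le
  have hW : WB T * den T = num T := by unfold WB; field_simp
  have hWpos : 0 < WB T := lt_of_lt_of_le hw hwB
  have hWBd : 0 ≤ WBd T := by unfold WBd; positivity
  -- monotone in w
  have h1 : NN T (WB T) ≤ NN T w := by
    have e : NN T w - NN T (WB T) = (WB T - w) * ((200 + 16*T - 22*T^2 - 2*T^3)
        + (400 + 156*T + 4*T^2)*(w + WB T) + (200 + 32*T)*(w^2 + w*WB T + (WB T)^2)) := by
      unfold NN; ring
    have h2 : 0 ≤ 200 + 16*T - 22*T^2 - 2*T^3 := by nlinarith [mul_pos hT hT, pow_pos hT 3]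
    have h3 : 0 ≤ (WB T - w) := by linarith
    have : 0 ≤ (WB T - w) * ((200 + 16*T - 22*T^2 - 2*T^3)
        + (400 + 156*T + 4*T^2)*(w + WB T) + (200 + 32*T)*(w^2 + w*WB T + (WB T)^2)) := by
      positivity
    linarith
  have h2 : DD T w ≤ DD T (WB T) := by
    unfold DD
    have : 2+T+2*w ≤ 2+T+2*WB T := by linarith
    exact mul_le_mul_of_nonneg_left this (by positivity)
  have h3 : WBd T * DD T w ≤ WBd T * DD T (WB T) := mul_le_mul_of_nonneg_left h2 hWBd
  have h4 : 0 < NN T (WB T) - WBd T * DD T (WB T) := by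
    have e : (NN T (WB T) - WBd T * DD T (WB T)) * (den T)^3
        = T^3 * (2541111750000 + 2949008850000*T - 4237267477000*T^2 + 912521487800*T^3
          + 4532636189952*T^4 + 798150042414*T^5 + 29307236913*T^6) := by
      have hW2 : WB T = num T / den T := rfl
      rw [hW2]
      unfold NN DD WBd
      have : den T ≠ 0 := hd.ne'
      field_simp
      unfold num den
      ring
    have h5 : 0 < T^3 * (2541111750000 + 2949008850000*T - 4237267477000*T^2 + 912521487800*T^3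
          + 4532636189952*T^4 + 798150042414*T^5 + 29307236913*T^6) := by
      apply mul_pos (pow_pos hT 3)
      have : T^2 ≤ T := by nlinarith
      have h6 : T ≤ 1 := hT1
      have : 0 < 2541111750000 + 2949008850000*T - 4237267477000*T^2 := by nlinarith
      have : 0 < 912521487800*T^3
          + 4532636189952*T^4 + 798150042414*T^5 + 29307236913*T^6 := by positivity
      linarith
    rw [← e] at h5
    exact (mul_pos_iff_of_pos_right (pow_pos hd 3)).1 h5
  linarith

/-- positivity of `S` above the barrier for `T ≤ 1` -/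
lemma SS_pos_small {T w : ℝ} (hT : 0 < T) (hT1 : T ≤ 1) (hw : WB T ≤ w) : 0 < SS T w := by
  have hd := den_pos hT.le
  have hWpos : 0 < WB T := by unfold WB num; positivity
  obtain ⟨h, rfl⟩ : ∃ h, w = WB T + h := ⟨w - WB T, by ring⟩
  have hh : 0 ≤ h := by linarith
  set W := WB T with hWdef
  have e : SS T (W + h) = SS T W + SW T W * h + h^2 * (
      (64000 + 82400*T + 33040*T^2 + 4720*T^3 + 344*T^4 + 16*T^5)
      + (96000 + 112800*T + 39520*T^2 + 3280*T^3 + 48*T^4)*(3*W + h)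
      + (64000 + 53600*T + 10800*T^2 + 320*T^3)*(6*W^2 + 4*W*h + h^2)
      + (16000 + 6560*T + 928*T^2)*(10*W^3 + 10*W^2*h + 5*W*h^2 + h^3)) := by
    unfold SS SW; ring
  have p3 : 0 ≤ h^2 * (
      (64000 + 82400*T + 33040*T^2 + 4720*T^3 + 344*T^4 + 16*T^5)
      + (96000 + 112800*T + 39520*T^2 + 3280*T^3 + 48*T^4)*(3*W + h)
      + (64000 + 53600*T + 10800*T^2 + 320*T^3)*(6*W^2 + 4*W*h + h^2)
      + (16000 + 6560*T + 928*T^2)*(10*W^3 + 10*W^2*h + 5*W*h^2 + h^3)) := by positivity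
  have hW2 : W = num T / den T := rfl
  have p1 : 0 < SS T W := by
    have e1 : SS T W * (den T)^5 = T^3 * (1499327921250000000000 + 29782128326625000000000*T
        + 181969306547130000000000*T^2 + 526351661661960000000000*T^3 + 812056762809545285000000*T^4
        + 661994122609835211000000*T^5 + 225101578691201258820000*T^6 - 36678473758729805406000*T^7
        - 52272722636346503736560*T^8 - 14939375257059813271488*T^9 - 1863120744693062154540*T^10
        - 106945451987690294928*T^11 - 2879803115565896466*T^12 - 31155517806298947*T^13) := by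
      rw [hW2]
      unfold SS
      have : den T ≠ 0 := hd.ne'
      field_simp
      unfold num den
      ring
    have e2 : 0 < T^3 * (1499327921250000000000 + 29782128326625000000000*T
        + 181969306547130000000000*T^2 + 526351661661960000000000*T^3 + 812056762809545285000000*T^4
        + 661994122609835211000000*T^5 + 225101578691201258820000*T^6 - 36678473758729805406000*T^7
        - 52272722636346503736560*T^8 - 14939375257059813271488*T^9 - 1863120744693062154540*T^10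
        - 106945451987690294928*T^11 - 2879803115565896466*T^12 - 31155517806298947*T^13) := by
      apply mul_pos (pow_pos hT 3)
      have k7 : T^7 ≤ T^6 := pow_le_pow_of_le_one hT.le hT1 (by norm_num)
      have k8 : T^8 ≤ T^6 := pow_le_pow_of_le_one hT.le hT1 (by norm_num)
      have k9 : T^9 ≤ T^6 := pow_le_pow_of_le_one hT.le hT1 (by norm_num)
      have k10 : T^10 ≤ T^6 := pow_le_pow_of_le_one hT.le hT1 (by norm_num)
      have k11 : T^11 ≤ T^6 := pow_le_pow_of_le_one hT.le hT1 (by norm_num)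
      have k12 : T^12 ≤ T^6 := pow_le_pow_of_le_one hT.le hT1 (by norm_num)
      have k13 : T^13 ≤ T^6 := pow_le_pow_of_le_one hT.le hT1 (by norm_num)
      have k6 : 0 < T^6 := pow_pos hT 6
      have : 0 < 1499327921250000000000 + 29782128326625000000000*T
        + 181969306547130000000000*T^2 + 526351661661960000000000*T^3 + 812056762809545285000000*T^4
        + 661994122609835211000000*T^5 := by positivity
      linarith
    rw [← e1] at e2
    exact (mul_pos_iff_of_pos_right (pow_pos hd 5)).1 e2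
  have p2 : 0 ≤ SW T W := by
    have e1 : SW T W * (den T)^4 = 33215062500000000000 + 380152541250000000000*T
        + 1869558043500000000000*T^2 + 5177793614490000000000*T^3 + 8908029455921500000000*T^4
        + 9920982866797220000000*T^5 + 7229067239472930000000*T^6 + 3392103203791974620000*T^7
        + 977893102422336260000*T^8 + 159137798046460832800*T^9 + 13116451976628786080*T^10
        + 462226361926901640*T^11 + 10694058082746624*T^12 + 365193574014042*T^13
        + 6239214540162*T^14 := by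
      rw [hW2]
      unfold SW
      have : den T ≠ 0 := hd.ne'
      field_simp
      unfold num den
      ring
    have e2 : 0 < SW T W * (den T)^4 := by rw [e1]; positivity
    exact ((mul_pos_iff_of_pos_right (pow_pos hd 4)).1 e2).le
  rw [e]
  have : 0 ≤ SW T W * h := mul_nonneg p2 hh
  linarith

lemma stays_nonpos {f f' : ℝ → ℝ} {a b : ℝ} (hf : ∀ z ∈ Icc a b, HasDerivAt f (f' z) z)
    (h0 : f a ≤ 0) (h : ∀ z ∈ Ico a b, f z = 0 → f' z < 0) : ∀ z ∈ Icc a b, f z ≤ 0 := by
  intro z hz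
  exact image_le_of_deriv_right_lt_deriv_boundary' (f := f) (f' := f') (a := a) (b := b)
    (fun y hy => (hf y hy).continuousAt.continuousWithinAt)
    (fun y hy => (hf y ⟨hy.1, hy.2.le⟩).hasDerivWithinAt)
    (B := fun _ => 0) (B' := fun _ => 0) h0 continuousOn_const
    (fun y _ => hasDerivWithinAt_const _ _ _) h hz

variable {x q ω : ℝ → ℝ}

def Tf (x : ℝ → ℝ) (z : ℝ) : ℝ := 10 / x z
def wf (x q : ℝ → ℝ) (z : ℝ) : ℝ := 5*(2*q z - x z)/(x z*(2 - 2*q z + x z)) - 1

lemma Tf_pos (C : Curve x q ω) (z : ℝ) : 0 < Tf x z := div_pos (by norm_num) (C.x_pos z)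

lemma wf_gt (C : Curve x q ω) (z : ℝ) : -1 < wf x q z := by
  unfold wf
  have h1 := C.x_pos z
  have h2 := C.g_pos z
  have h3 := C.g_lt z
  have : 0 < 5*(2*q z - x z)/(x z*(2 - 2*q z + x z)) := by
    apply div_pos (by linarith)
    exact mul_pos h1 (by linarith)
  linarith

lemma Tf_deriv (C : Curve x q ω) (z : ℝ) :
    HasDerivAt (Tf x) (-(ω z * (Tf x z)^2 / 10)) z := by
  unfold Tf
  have h := (hasDerivAt_const z (10:ℝ)).div (C.hx z) (C.x_pos z).ne'
  refine h.congr_deriv ?_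
  have := (C.x_pos z).ne'
  field_simp
  ring

lemma wf_deriv (C : Curve x q ω) (z : ℝ) :
    HasDerivAt (wf x q)
      (-(ω z * NN (Tf x z) (wf x q z) / (20*(10 + Tf x z)*(2 + Tf x z + 2*wf x q z)))) z := by
  have hx0 := C.x_pos z
  have h2 := C.g_pos z
  have h3 := C.g_lt z
  have hq0 : 0 < q z := by linarith
  have hd : 0 < 2 - 2*q z + x z := by linarith
  have h1 : HasDerivAt (fun z => 5*(2*q z - x z))
      (5*(2*(ω z * (q z * (1 + q z) * (2 * q z - x z) / (x z * (1 + x z)))) - ω z)) z :=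
    (((C.hq z).const_mul 2).sub (C.hx z)).const_mul 5
  have h4 : HasDerivAt (fun z => x z*(2 - 2*q z + x z))
      (ω z * (2 - 2*q z + x z) + x z * (0 - 2*(ω z * (q z * (1 + q z) * (2 * q z - x z) / (x z * (1 + x z)))) + ω z)) z :=
    (C.hx z).mul (((hasDerivAt_const z (2:ℝ)).sub ((C.hq z).const_mul 2)).add (C.hx z))
  have h5 := (h1.div h4 (mul_pos hx0 hd).ne').sub_const 1
  unfold wf
  refine h5.congr_deriv ?_
  have hd' : 2 - 2*q z + x z ≠ 0 := hd.ne'
  have hx0' : x z ≠ 0 := hx0.ne'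
  have hx1 : 1 + x z ≠ 0 := by positivity
  obtain ⟨R, hR⟩ : ∃ R, R = 2 - 2*q z + x z := ⟨_, rfl⟩
  have hQ : q z = (2 + x z - R)/2 := by rw [hR]; ring
  have hR0 : R ≠ 0 := by rw [hR]; exact hd'
  have hden : 20*(10 + Tf x z)*(2 + Tf x z + 2*(5*(2*q z - x z)/(x z*(2 - 2*q z + x z)) - 1))
      = 4000 * (1 + x z) / ((x z)^2 * (2 - 2*q z + x z)) := by
    rw [← hR, hQ]
    unfold Tf
    field_simp
    ring
  rw [hden]
  unfold NN Tf
  rw [← hR, hQ]
  field_simp
  ring

lemma x_mono (C : Curve x q ω) : StrictMono x :=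
  strictMono_of_deriv_pos (fun z => by rw [(C.hx z).deriv]; exact C.ω_pos z)

lemma Tf_anti (C : Curve x q ω) {a b : ℝ} (h : a ≤ b) : Tf x b ≤ Tf x a := by
  unfold Tf
  exact div_le_div_of_nonneg_left (by norm_num) (C.x_pos a) ((x_mono C).monotone h)

lemma NN_lower {T w : ℝ} (hT : 0 < T) (h1 : -1 < w) (h2 : w ≤ 0) :
    5*T*(10+T)*(2+T+2*w) ≤ NN T w := by
  obtain ⟨a, rfl⟩ : ∃ a, w = -a := ⟨-w, by ring⟩
  have ha : 0 ≤ a := by linarith
  have hb : 0 < 1 - a := by linarith
  have e : NN T (-a) - 5*T*(10+T)*(2+T+2*(-a)) = 200*a*(1-a)^2 + 4*T*(1-a)*(2+31*a-8*a^2)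
      + 4*T^2*(1-a)*(4+a) + 2*T^3*(1-a) := by
    unfold NN; ring
  have h3 : 0 ≤ 2+31*a-8*a^2 := by nlinarith
  have : 0 ≤ 200*a*(1-a)^2 + 4*T*(1-a)*(2+31*a-8*a^2)
      + 4*T^2*(1-a)*(4+a) + 2*T^3*(1-a) := by positivity
  linarith

lemma twoT_pos (C : Curve x q ω) (z : ℝ) : 0 < 2 + Tf x z + 2*wf x q z := by
  have := wf_gt C z
  have := Tf_pos C z
  linarith

lemma wf_pos (C : Curve x q ω) (z₁ : ℝ) : 0 < wf x q z₁ := by
  by_contra hneg
  push Not at hneg
  have hstay : ∀ z, z₁ ≤ z → wf x q z ≤ 0 := by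
    intro z hz
    refine stays_nonpos (a := z₁) (b := z) (fun y _ => wf_deriv C y) hneg ?_ z ⟨hz, le_rfl⟩
    intro y _ hy
    have hT := Tf_pos C y
    have h2 := twoT_pos C y
    have h3 : 0 < NN (Tf x y) (wf x q y) := by
      rw [hy]; unfold NN
      have e : (108*Tf x y + 76*(Tf x y)^2 + 7*(Tf x y)^3)
        + (-200 - 16*Tf x y + 22*(Tf x y)^2 + 2*(Tf x y)^3)*0
        + (-400 - 156*Tf x y - 4*(Tf x y)^2)*0^2
        + (-200 - 32*Tf x y)*0^3 = 108*Tf x y + 76*(Tf x y)^2 + 7*(Tf x y)^3 := by ring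
      rw [e]; positivity
    have h4 : 0 < ω y * NN (Tf x y) (wf x q y) / (20*(10 + Tf x y)*(2 + Tf x y + 2*wf x q y)) := by
      have := C.ω_pos y
      exact div_pos (mul_pos this h3) (mul_pos (by positivity) h2)
    linarith
  have hF : AntitoneOn (fun z => wf x q z + 5/2 * Real.log (x z)) (Ici z₁) := by
    have hder : ∀ z, HasDerivAt (fun z => wf x q z + 5/2 * Real.log (x z))
        (-(ω z * NN (Tf x z) (wf x q z) / (20*(10 + Tf x z)*(2 + Tf x z + 2*wf x q z)))
          + 5/2 * (ω z / x z)) z := fun z =>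
      (wf_deriv C z).add (((C.hx z).log (C.x_pos z).ne').const_mul (5/2))
    apply antitoneOn_of_deriv_nonpos (convex_Ici z₁)
    · exact fun z _ => (hder z).continuousAt.continuousWithinAt
    · exact fun z _ => (hder z).differentiableAt.differentiableWithinAt
    · intro z hz
      rw [interior_Ici] at hz
      rw [(hder z).deriv]
      have hw0 := hstay z (le_of_lt hz)
      have hT := Tf_pos C z
      have h2 := twoT_pos C z
      have hω := C.ω_pos z
      have hx0 := C.x_pos z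
      have h3 := NN_lower hT (wf_gt C z) hw0
      have h4 : 5/2 * (ω z / x z) ≤ ω z * NN (Tf x z) (wf x q z)
          / (20*(10 + Tf x z)*(2 + Tf x z + 2*wf x q z)) := by
        rw [le_div_iff₀ (by positivity)]
        have e : 5/2 * (ω z / x z) * (20*(10 + Tf x z)*(2 + Tf x z + 2*wf x q z))
            = ω z * (5 * Tf x z * (10 + Tf x z)*(2 + Tf x z + 2*wf x q z)) := by
          have : ω z / x z = ω z * Tf x z / 10 := by unfold Tf; field_simp
          rw [this]; ring
        rw [e]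
        exact mul_le_mul_of_nonneg_left h3 hω.le
      linarith
  have hlog : Tendsto (fun z => Real.log (x z)) atTop atTop :=
    Real.tendsto_log_atTop.comp C.x_top
  obtain ⟨z, hz1, hz2⟩ := ((hlog.eventually_gt_atTop
    ((wf x q z₁ + 5/2 * Real.log (x z₁) + 1) / (5/2))).and (eventually_ge_atTop z₁)).exists
  have h5 := hF (mem_Ici.2 le_rfl) (mem_Ici.2 hz2) hz2
  have h6 := wf_gt C z
  rw [div_lt_iff₀ (by norm_num)] at hz1
  simp only at h5
  linarith

lemma barrier_pos (C : Curve x q ω) {z₁ : ℝ} (hz₁ : Tf x z₁ ≤ 1) : WB (Tf x z₁) ≤ wf x q z₁ := by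
  by_contra hneg
  push Not at hneg
  set f : ℝ → ℝ := fun z => wf x q z - WB (Tf x z) with hf
  have hder : ∀ z, HasDerivAt f
      (-(ω z / (20*(10 + Tf x z)*(2 + Tf x z + 2*wf x q z)))
        * (NN (Tf x z) (wf x q z) - WBd (Tf x z) * DD (Tf x z) (wf x q z))) z := by
    intro z
    have h1 := (wf_deriv C z).sub ((WB_hasDeriv (Tf_pos C z).le).comp z (Tf_deriv C z))
    refine h1.congr_deriv ?_
    have h2 := twoT_pos C z
    have hT := Tf_pos C z
    have h2' := h2.ne'
    unfold DD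
    field_simp
    ring
  have hT1 : ∀ z, z₁ ≤ z → Tf x z ≤ 1 := fun z hz => (Tf_anti C hz).trans hz₁
  have hneg' : ∀ z, z₁ ≤ z → f z ≤ 0 →
      -(ω z / (20*(10 + Tf x z)*(2 + Tf x z + 2*wf x q z)))
        * (NN (Tf x z) (wf x q z) - WBd (Tf x z) * DD (Tf x z) (wf x q z)) < 0 := by
    intro z hz hfz
    have h1 := barrier (Tf_pos C z) (hT1 z hz) (wf_pos C z) (by simpa [hf] using hfz)
    have h2 := twoT_pos C z
    have hT := Tf_pos C z
    have hω := C.ω_pos z
    have : 0 < ω z / (20*(10 + Tf x z)*(2 + Tf x z + 2*wf x q z)) := by positivity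
    nlinarith
  have hstay : ∀ z, z₁ ≤ z → f z ≤ 0 := by
    intro z hz
    refine stays_nonpos (a := z₁) (b := z) (fun y _ => hder y) ?_ ?_ z ⟨hz, le_rfl⟩
    · simp only [hf]; linarith
    · intro y hy hy0
      exact hneg' y hy.1 hy0.le
  have hanti : AntitoneOn f (Ici z₁) := by
    apply antitoneOn_of_deriv_nonpos (convex_Ici z₁)
    · exact fun z _ => (hder z).continuousAt.continuousWithinAt
    · exact fun z _ => (hder z).differentiableAt.differentiableWithinAt
    · intro z hz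
      rw [interior_Ici] at hz
      rw [(hder z).deriv]
      exact (hneg' z (le_of_lt hz) (hstay z (le_of_lt hz))).le
  have hd : f z₁ < 0 := by simp only [hf]; linarith
  -- take z far
  obtain ⟨z, hz1, hz2⟩ := ((C.x_top.eventually_gt_atTop (20 / (-f z₁))).and
    (eventually_ge_atTop z₁)).exists
  have h5 := hanti (mem_Ici.2 le_rfl) (mem_Ici.2 hz2) hz2
  have hT := Tf_pos C z
  have hx0 := C.x_pos z
  have h6 : WB (Tf x z) ≤ 2 * Tf x z := by
    unfold WB
    rw [div_le_iff₀ (den_pos hT.le)]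
    unfold num den
    have := hT1 z hz2
    nlinarith [mul_pos hT hT, mul_pos (mul_pos hT hT) hT]
  have h7 : 2 * Tf x z < - f z₁ := by
    unfold Tf
    rw [div_lt_iff₀ (by linarith)] at hz1
    have : 2 * (10 / x z) = 20 / x z := by ring
    rw [this, div_lt_iff₀ hx0]
    linarith
  have h8 := wf_pos C z
  have h9 : f z = wf x q z - WB (Tf x z) := rfl
  linarith

lemma SS_nonneg (C : Curve x q ω) (z₁ : ℝ) : 0 ≤ SS (Tf x z₁) (wf x q z₁) := by
  rcases le_or_gt (Tf x z₁) 1 with h1 | h1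
  · exact (SS_pos_small (Tf_pos C z₁) h1 (barrier_pos C h1)).le
  by_contra hneg
  push Not at hneg
  -- a point where T = 1
  obtain ⟨z₃, hz3, hz3'⟩ := ((C.x_top.eventually_gt_atTop 10).and (eventually_ge_atTop z₁)).exists
  have hT3 : Tf x z₃ ≤ 1 := by
    unfold Tf
    rw [div_le_one (C.x_pos z₃)]; exact hz3.le
  have hcont : ContinuousOn (Tf x) (Icc z₁ z₃) := fun z _ =>
    (Tf_deriv C z).continuousAt.continuousWithinAt
  obtain ⟨z₂, hz2, hT2⟩ := intermediate_value_Icc' hz3' hcont ⟨hT3, h1.le⟩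
  have hder : ∀ z, HasDerivAt (fun z => SS (Tf x z) (wf x q z))
      (-(ω z / (20*(10 + Tf x z)*(2 + Tf x z + 2*wf x q z)))
        * (ST (Tf x z) (wf x q z) * DD (Tf x z) (wf x q z)
          + SW (Tf x z) (wf x q z) * NN (Tf x z) (wf x q z))) z := by
    intro z
    have hT := Tf_deriv C z
    have hw := wf_deriv C z
    have h2 := twoT_pos C z
    have hTp := Tf_pos C z
    set T' := -(ω z * (Tf x z)^2 / 10) with hT'
    set w' := -(ω z * NN (Tf x z) (wf x q z) / (20*(10 + Tf x z)*(2 + Tf x z + 2*wf x q z))) with hw'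
    have key : HasDerivAt (fun z => SS (Tf x z) (wf x q z))
        (ST (Tf x z) (wf x q z) * T' + SW (Tf x z) (wf x q z) * w') z := by
      have p : ∀ n : ℕ, HasDerivAt (fun z => (Tf x z)^n) ((n:ℝ) * (Tf x z)^(n-1) * T') z :=
        fun n => hT.pow n
      have r : ∀ n : ℕ, HasDerivAt (fun z => (wf x q z)^n) ((n:ℝ) * (wf x q z)^(n-1) * w') z :=
        fun n => hw.pow n
      have c0 := ((((((hT.const_mul (-8640)).sub ((p 2).const_mul 17312)).sub
        ((p 3).const_mul 11880)).sub ((p 4).const_mul 3252)).sub ((p 5).const_mul 354)).sub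
        ((p 6).const_mul 13))
      have c1 := (((((((hasDerivAt_const z (16000:ℝ)).add (hT.const_mul 8000)).sub
        ((p 2).const_mul 13920)).sub ((p 3).const_mul 10120)).sub ((p 4).const_mul 1456)).sub
        ((p 5).const_mul 38)).add ((p 6).const_mul 2)).mul hw
      have c2 := ((((((hasDerivAt_const z (64000:ℝ)).add (hT.const_mul 82400)).add
        ((p 2).const_mul 33040)).add ((p 3).const_mul 4720)).add ((p 4).const_mul 344)).add
        ((p 5).const_mul 16)).mul (r 2)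
      have c3 := (((((hasDerivAt_const z (96000:ℝ)).add (hT.const_mul 112800)).add
        ((p 2).const_mul 39520)).add ((p 3).const_mul 3280)).add ((p 4).const_mul 48)).mul (r 3)
      have c4 := ((((hasDerivAt_const z (64000:ℝ)).add (hT.const_mul 53600)).add
        ((p 2).const_mul 10800)).add ((p 3).const_mul 320)).mul (r 4)
      have c5 := (((hasDerivAt_const z (16000:ℝ)).add (hT.const_mul 6560)).add
        ((p 2).const_mul 928)).mul (r 5)
      have h := ((((c0.add c1).add c2).add c3).add c4).add c5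
      refine (h.congr_deriv ?_).congr_of_eventuallyEq (Eventually.of_forall ?_)
      · unfold ST SW
        simp only [Pi.add_apply, Pi.sub_apply]
        push_cast
        ring
      · intro y
        simp only [Pi.add_apply, Pi.sub_apply, Pi.mul_apply]
        unfold SS
        ring
    refine key.congr_deriv ?_
    rw [hT', hw']
    unfold DD
    have h2' := h2.ne'
    field_simp
    ring
  have hst := stays_nonpos (a := z₁) (b := z₂) (fun y _ => hder y) hneg.le (by
    intro y hy hy0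
    have hTy : 1 ≤ Tf x y := by
      rw [← hT2]; exact Tf_anti C hy.2.le
    have hwy := wf_pos C y
    have h2 := twoT_pos C y
    have hTp := Tf_pos C y
    have hω := C.ω_pos y
    have hc := cert (Tf x y - 1) (wf x q y)
    have e1 : 1 + (Tf x y - 1) = Tf x y := by ring
    rw [e1] at hc
    have hE := EE_pos (s := Tf x y - 1) (by linarith) hwy
    rw [hy0, mul_zero, zero_add] at hc
    rw [hc]
    have : 0 < ω y / (20*(10 + Tf x y)*(2 + Tf x y + 2*wf x q y)) := by positivity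
    nlinarith) z₂ ⟨hz2.1, le_rfl⟩
  have h9 := SS_pos_small (Tf_pos C z₂) hT2.le (barrier_pos C hT2.le)
  linarith

/-! ### The slope `Y = dq/dx` and its `x`-derivatives along the curve -/

def PA (x q : ℝ) : ℝ := q * (1 + q) * (2 * q - x)
def PB (x : ℝ) : ℝ := x * (1 + x)
def P1 (x q : ℝ) : ℝ := (-q^2 - q) * PB x + (6*q^2 + 4*q - 2*x*q - x) * PA x q - PA x q * (1 + 2*x)
/-- `∂_x P1` -/
def P1x (x q : ℝ) : ℝ :=
  (-q^2 - q) * (1 + 2*x) + (-2*q - 1) * PA x q + (6*q^2 + 4*q - 2*x*q - x) * (-q^2 - q)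
    - (-q^2 - q) * (1 + 2*x) - PA x q * 2
/-- `∂_q P1` -/
def P1q (x q : ℝ) : ℝ :=
  (-2*q - 1) * PB x + (12*q + 4 - 2*x) * PA x q
    + (6*q^2 + 4*q - 2*x*q - x) * (6*q^2 + 4*q - 2*x*q - x) - (6*q^2 + 4*q - 2*x*q - x) * (1 + 2*x)
def P2 (x q : ℝ) : ℝ := P1x x q * PB x + P1q x q * PA x q - 2 * P1 x q * (1 + 2*x)

def Y0 (x q : ℝ) : ℝ := PA x q / PB x
def Y1 (x q : ℝ) : ℝ := P1 x q / (PB x)^2
def Y2 (x q : ℝ) : ℝ := P2 x q / (PB x)^3

lemma schwarz (X Q : ℝ) (hX : 0 < X) (hR : 0 < 2 - 2*Q + X) :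
    2 * PA X Q * P2 X Q - 3 * (P1 X Q)^2
      = X^7 * Q^3 * (1+Q)^2 * (2 - 2*Q + X)^5 / 80000000
        * SS (10/X) (5*(2*Q - X)/(X*(2 - 2*Q + X)) - 1) := by
  obtain ⟨R, hRd⟩ : ∃ R, R = 2 - 2*Q + X := ⟨_, rfl⟩
  have hR0 : R ≠ 0 := by rw [hRd]; exact hR.ne'
  have hQ : Q = (2 + X - R)/2 := by rw [hRd]; ring
  rw [← hRd]
  subst hQ
  have hX0 := hX.ne'
  unfold SS P2 P1x P1q P1 PA PB
  field_simp
  ring


lemma q_pos (C : Curve x q ω) (z : ℝ) : 0 < q z := by
  have := C.g_pos z; have := C.x_pos z; linarith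

lemma PB_pos (C : Curve x q ω) (z : ℝ) : 0 < PB (x z) := by
  have := C.x_pos z
  unfold PB; positivity

lemma PA_pos (C : Curve x q ω) (z : ℝ) : 0 < PA (x z) (q z) := by
  have h1 := q_pos C z
  have h2 := C.g_pos z
  have h3 : 0 < 2 * q z - x z := by linarith
  unfold PA; positivity

lemma Y0_pos (C : Curve x q ω) (z : ℝ) : 0 < Y0 (x z) (q z) := div_pos (PA_pos C z) (PB_pos C z)

lemma q_deriv (C : Curve x q ω) (z : ℝ) : HasDerivAt q (ω z * Y0 (x z) (q z)) z := C.hq z

lemma PB_deriv (C : Curve x q ω) (z : ℝ) :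
    HasDerivAt (fun z => PB (x z)) (ω z * (1 + 2 * x z)) z := by
  unfold PB
  refine ((C.hx z).mul ((C.hx z).const_add 1)).congr_deriv ?_
  ring

lemma PA_deriv (C : Curve x q ω) (z : ℝ) :
    HasDerivAt (fun z => PA (x z) (q z))
      (ω z * ((-(q z)^2 - q z) + (6*(q z)^2 + 4*q z - 2*x z*q z - x z) * Y0 (x z) (q z))) z := by
  unfold PA
  have h := (((q_deriv C z).mul ((q_deriv C z).const_add 1)).mul
    (((q_deriv C z).const_mul 2).sub (C.hx z)))
  refine h.congr_deriv ?_
  simp only [Pi.mul_apply, Pi.sub_apply]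
  ring

lemma Y0_deriv (C : Curve x q ω) (z : ℝ) :
    HasDerivAt (fun z => Y0 (x z) (q z)) (ω z * Y1 (x z) (q z)) z := by
  have hB := (PB_pos C z).ne'
  have h := (PA_deriv C z).div (PB_deriv C z) hB
  refine h.congr_deriv ?_
  unfold Y0 Y1 P1
  generalize PB (x z) = B at *
  generalize PA (x z) (q z) = A at *
  field_simp

lemma P1_deriv (C : Curve x q ω) (z : ℝ) :
    HasDerivAt (fun z => P1 (x z) (q z))
      (ω z * (P1x (x z) (q z) + P1q (x z) (q z) * Y0 (x z) (q z))) z := by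
  unfold P1
  have hx := C.hx z
  have hq := q_deriv C z
  have hA := PA_deriv C z
  have hB := PB_deriv C z
  have h := ((((hq.pow 2).neg.sub hq).mul hB).add
    (((((((hq.pow 2).const_mul 6).add (hq.const_mul 4)).sub ((hx.const_mul 2).mul hq)).sub hx)).mul hA)).sub
    (hA.mul ((hx.const_mul 2).const_add 1))
  refine h.congr_deriv ?_
  simp only [Pi.mul_apply, Pi.add_apply, Pi.sub_apply, Pi.neg_apply, Pi.pow_apply, P1x, P1q]
  push_cast
  ring

lemma Y1_deriv (C : Curve x q ω) (z : ℝ) :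
    HasDerivAt (fun z => Y1 (x z) (q z)) (ω z * Y2 (x z) (q z)) z := by
  have hB := (PB_pos C z).ne'
  have h := (P1_deriv C z).div ((PB_deriv C z).pow 2) (pow_ne_zero 2 hB)
  refine h.congr_deriv ?_
  unfold Y2 P2
  have e : Y0 (x z) (q z) = PA (x z) (q z) / PB (x z) := rfl
  rw [e]
  simp only [Pi.pow_apply]
  generalize PB (x z) = B at *
  generalize PA (x z) (q z) = A at *
  push_cast
  field_simp

lemma schwarz_nonneg (C : Curve x q ω) (z : ℝ) :
    0 ≤ 2 * Y0 (x z) (q z) * Y2 (x z) (q z) - 3 * (Y1 (x z) (q z))^2 := by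
  have hB := PB_pos C z
  have hx := C.x_pos z
  have hq := q_pos C z
  have hR : 0 < 2 - 2 * q z + x z := by have := C.g_lt z; linarith
  have h1 := schwarz (x z) (q z) hx hR
  have h2 : 0 ≤ SS (10 / x z) (5*(2*q z - x z)/(x z*(2 - 2*q z + x z)) - 1) := SS_nonneg C z
  have h3 : 0 ≤ 2 * PA (x z) (q z) * P2 (x z) (q z) - 3 * (P1 (x z) (q z))^2 := by
    rw [h1]
    have : 0 ≤ (x z)^7 * (q z)^3 * (1+q z)^2 * (2 - 2*q z + x z)^5 / 80000000 := by positivity
    exact mul_nonneg this h2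
  have e : 2 * Y0 (x z) (q z) * Y2 (x z) (q z) - 3 * (Y1 (x z) (q z))^2
      = (2 * PA (x z) (q z) * P2 (x z) (q z) - 3 * (P1 (x z) (q z))^2) / (PB (x z))^4 := by
    unfold Y0 Y1 Y2
    generalize PB (x z) = B at *
    field_simp
  rw [e]
  positivity

/-- the square root of `dq/dx` along the curve -/
def sY (x q : ℝ → ℝ) (z : ℝ) : ℝ := Real.sqrt (Y0 (x z) (q z))

lemma sY_pos (C : Curve x q ω) (z : ℝ) : 0 < sY x q z := Real.sqrt_pos.2 (Y0_pos C z)

lemma sY_sq (C : Curve x q ω) (z : ℝ) : (sY x q z)^2 = Y0 (x z) (q z) :=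
  Real.sq_sqrt (Y0_pos C z).le

lemma sY_deriv (C : Curve x q ω) (z : ℝ) :
    HasDerivAt (sY x q) (ω z * Y1 (x z) (q z) / (2 * sY x q z)) z :=
  (Y0_deriv C z).sqrt (Y0_pos C z).ne'

/-- `-Y₁/(2 s³)`, the `x`-derivative of `1/s` -/
def Dd (x q : ℝ → ℝ) (z : ℝ) : ℝ := -(Y1 (x z) (q z)) / (2 * (sY x q z)^3)

lemma Dd_deriv (C : Curve x q ω) (z : ℝ) :
    HasDerivAt (Dd x q) (-(ω z * (2 * Y0 (x z) (q z) * Y2 (x z) (q z) - 3 * (Y1 (x z) (q z))^2)
      / (4 * (sY x q z)^5))) z := by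
  have hs := sY_pos C z
  have h := (Y1_deriv C z).neg.div (((sY_deriv C z).pow 3).const_mul 2)
    (by simp only [Pi.pow_apply]; positivity)
  have h' : HasDerivAt (Dd x q) _ z := h
  refine h'.congr_deriv ?_
  rw [← sY_sq C z]
  simp only [Pi.neg_apply, Pi.pow_apply]
  generalize sY x q z = s at *
  push_cast
  field_simp
  ring

lemma Dd_anti (C : Curve x q ω) : Antitone (Dd x q) := by
  refine antitone_of_deriv_nonpos (fun z => (Dd_deriv C z).differentiableAt) (fun z => ?_)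
  rw [(Dd_deriv C z).deriv]
  have h1 := schwarz_nonneg C z
  have h2 := C.ω_pos z
  have h3 := sY_pos C z
  have : 0 ≤ ω z * (2 * Y0 (x z) (q z) * Y2 (x z) (q z) - 3 * (Y1 (x z) (q z))^2)
      / (4 * (sY x q z)^5) := by positivity
  linarith

lemma Xi_nonneg (C : Curve x q ω) {z₁ z : ℝ} (hz : z₁ ≤ z) :
    0 ≤ (sY x q z)⁻¹ - (sY x q z₁)⁻¹ - (x z - x z₁) * Dd x q z := by
  have hder : ∀ z, HasDerivAt (fun z => (sY x q z)⁻¹ - (sY x q z₁)⁻¹ - (x z - x z₁) * Dd x q z)
      ((x z - x z₁) * (ω z * (2 * Y0 (x z) (q z) * Y2 (x z) (q z) - 3 * (Y1 (x z) (q z))^2)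
      / (4 * (sY x q z)^5))) z := by
    intro z
    have hs := sY_pos C z
    have h := (((sY_deriv C z).inv hs.ne').sub_const ((sY x q z₁)⁻¹)).sub
      (((C.hx z).sub_const (x z₁)).mul (Dd_deriv C z))
    refine h.congr_deriv ?_
    unfold Dd
    field_simp
    ring
  have hmono : MonotoneOn (fun z => (sY x q z)⁻¹ - (sY x q z₁)⁻¹ - (x z - x z₁) * Dd x q z)
      (Ici z₁) := by
    apply monotoneOn_of_deriv_nonneg (convex_Ici z₁)
    · exact fun z _ => (hder z).continuousAt.continuousWithinAt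
    · exact fun z _ => (hder z).differentiableAt.differentiableWithinAt
    · intro z hz
      rw [interior_Ici] at hz
      rw [(hder z).deriv]
      have h0 : x z₁ < x z := x_mono C hz
      have h1 := schwarz_nonneg C z
      have h2 := C.ω_pos z
      have h3 := sY_pos C z
      have : 0 ≤ x z - x z₁ := by linarith
      positivity
  have := hmono (mem_Ici.2 le_rfl) (mem_Ici.2 hz) hz
  simpa using this

/-- **The two-point inequality** (F2): `q` increases by at most the geometric mean of the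
slopes. -/
theorem two_point (C : Curve x q ω) {z₁ z₂ : ℝ} (hz : z₁ ≤ z₂) :
    q z₂ - q z₁ ≤ (x z₂ - x z₁) * (sY x q z₁ * sY x q z₂) := by
  have hder : ∀ z, HasDerivAt (fun z => (x z - x z₁) * (sY x q z₁ * sY x q z) - (q z - q z₁))
      (ω z * (sY x q z)^2 * sY x q z₁ *
        ((sY x q z)⁻¹ - (sY x q z₁)⁻¹ - (x z - x z₁) * Dd x q z)) z := by
    intro z
    have hs := sY_pos C z
    have hs1 := sY_pos C z₁
    have h := (((C.hx z).sub_const (x z₁)).mul ((sY_deriv C z).const_mul (sY x q z₁))).sub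
      ((q_deriv C z).sub_const (q z₁))
    refine h.congr_deriv ?_
    rw [← sY_sq C z]
    unfold Dd
    field_simp
    ring
  have hmono : MonotoneOn (fun z => (x z - x z₁) * (sY x q z₁ * sY x q z) - (q z - q z₁))
      (Ici z₁) := by
    apply monotoneOn_of_deriv_nonneg (convex_Ici z₁)
    · exact fun z _ => (hder z).continuousAt.continuousWithinAt
    · exact fun z _ => (hder z).differentiableAt.differentiableWithinAt
    · intro z hz
      rw [interior_Ici] at hz
      rw [(hder z).deriv]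
      have h1 := Xi_nonneg C (le_of_lt hz)
      have h2 := C.ω_pos z
      have h3 := sY_pos C z
      have h4 := sY_pos C z₁
      positivity
  have := hmono (mem_Ici.2 le_rfl) (mem_Ici.2 hz) hz
  simp only [sub_self, zero_mul] at this
  linarith

end

end Vale.Agent.P254.One.F2
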