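import Mathlib
import Vale.Agent.P254.One.Basic

namespace Vale.Agent.P254.One

open MeasureTheory Set Filter Topology

theorem poly_gauss_tendsto (c : ℝ) (hc : 0 < c) (k : ℕ) :
    Tendsto (fun z : ℝ => (1 + z) ^ k * Real.exp (-(c * z ^ 2 / 2))) atTop (𝓝 0) := by
  have h1 := (isLittleO_pow_exp_pos_mul_atTop (b := c / 2) k (by positivity)).tendsto_div_nhds_zero
  have h2 : Tendsto (fun z : ℝ => 2 ^ k * (z ^ k / Real.exp (c / 2 * z))) atTop (𝓝 0) := by
    simpa using h1.const_mul ((2:ℝ) ^ k)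
  refine squeeze_zero' ?_ ?_ h2
  · filter_upwards [eventually_ge_atTop 0] with z hz
    have : 0 ≤ 1 + z := by linarith
    positivity
  · filter_upwards [eventually_ge_atTop 1] with z hz
    have e1 : (1 + z) ^ k ≤ 2 ^ k * z ^ k := by
      rw [← mul_pow]
      exact pow_le_pow_left₀ (by linarith) (by linarith) k
    have e2 : Real.exp (-(c * z ^ 2 / 2)) ≤ (Real.exp (c / 2 * z))⁻¹ := by
      rw [← Real.exp_neg, Real.exp_le_exp]
      have : c / 2 * z ≤ c / 2 * z ^ 2 := mul_le_mul_of_nonneg_left (by nlinarith) (by positivity)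
      linarith
    calc (1 + z) ^ k * Real.exp (-(c * z ^ 2 / 2)) ≤ (2 ^ k * z ^ k) * (Real.exp (c / 2 * z))⁻¹ :=
          mul_le_mul e1 e2 (Real.exp_pos _).le (by positivity)
      _ = 2 ^ k * (z ^ k / Real.exp (c / 2 * z)) := by rw [div_eq_mul_inv]; ring

/-- the unstable barrier lemma -/
theorem lemmaU {P P' : ℝ → ℝ} {c C : ℝ} {k : ℕ} (hc : 0 < c)
    (hd : ∀ z, HasDerivAt P (P' z) z)
    (h1 : ∀ z, P z ≤ 0 → P' z < 0) (h2 : ∀ z, 0 < z → P z ≤ 0 → P' z ≤ c * z * P z)
    (hb : ∀ z, 1 ≤ z → -(C * (1 + z) ^ k) ≤ P z) (z : ℝ) : 0 < P z := by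
  by_contra hcon
  rw [not_lt] at hcon
  have hneg : ∀ y, z ≤ y → P y ≤ 0 := by
    intro y hy
    have := image_le_of_deriv_right_lt_deriv_boundary (f := P) (f' := P') (a := z) (b := y)
      (B := fun _ => 0) (B' := fun _ => 0)
      (fun x _ => (hd x).continuousAt.continuousWithinAt)
      (fun x _ => (hd x).hasDerivWithinAt) hcon (fun x => hasDerivAt_const x 0)
      (fun x _ hx => h1 x hx.le)
    exact this (right_mem_Icc.mpr hy)
  have hanti : StrictAntiOn P (Ici z) := by
    refine strictAntiOn_of_deriv_neg (convex_Ici z) ?_ ?_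
    · intro y _
      exact (hd y).continuousAt.continuousWithinAt
    · intro y hy
      rw [interior_Ici] at hy
      rw [(hd y).deriv]
      exact h1 y (hneg y (le_of_lt hy))
  set w := max z 0 + 1 with hw
  have hwz : z < w := by have := le_max_left z 0; linarith
  have hw0 : 0 < w := by have := le_max_right z 0; linarith
  have hPw : P w < 0 := lt_of_lt_of_le (hanti (by simp) (by simp [hwz.le]) hwz) hcon
  set Q : ℝ → ℝ := fun y => P y * Real.exp (-(c * y ^ 2 / 2)) with hQ
  have hQd : ∀ y, HasDerivAt Q ((P' y - c * y * P y) * Real.exp (-(c * y ^ 2 / 2))) y := by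
    intro y
    have e1 : HasDerivAt (fun y : ℝ => -(c * y ^ 2 / 2)) (-(c * y)) y := by
      have := ((((hasDerivAt_id y).pow 2).const_mul c).div_const 2).neg
      exact this.congr_deriv (by simp; ring)
    have := (hd y).mul e1.exp
    exact this.congr_deriv (by ring)
  have hQa : AntitoneOn Q (Ici w) := by
    refine antitoneOn_of_deriv_nonpos (convex_Ici w) ?_ ?_ ?_
    · intro y _
      exact (hQd y).continuousAt.continuousWithinAt
    · intro y _
      exact (hQd y).differentiableAt.differentiableWithinAt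
    · intro y hy
      rw [interior_Ici] at hy
      rw [(hQd y).deriv]
      have := h2 y (hw0.trans hy) (hneg y (hwz.trans hy).le)
      exact mul_nonpos_of_nonpos_of_nonneg (by linarith) (Real.exp_pos _).le
  have hQw : Q w < 0 := mul_neg_of_neg_of_pos hPw (Real.exp_pos _)
  have ht := (poly_gauss_tendsto c hc k).const_mul C
  rw [mul_zero] at ht
  have hev : ∀ᶠ y in atTop, C * ((1 + y) ^ k * Real.exp (-(c * y ^ 2 / 2))) < -(Q w) :=
    ht.eventually (gt_mem_nhds (by linarith))
  obtain ⟨y, ⟨hy1, hy2⟩, hy0⟩ := ((hev.and (eventually_ge_atTop w)).and (eventually_ge_atTop 1)).exists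
  have hy3 : Q y ≤ Q w := hQa (by simp) hy2 hy2
  have hy4 := hb y hy0
  have hy5 : -(C * (1 + y) ^ k) * Real.exp (-(c * y ^ 2 / 2)) ≤ Q y :=
    mul_le_mul_of_nonneg_right hy4 (Real.exp_pos _).le
  nlinarith

theorem mm_lt {z : ℝ} (hz : 0 < z) : mm z < 1 / z := by
  have := one_sub_zm z
  rw [lt_div_iff₀ hz]
  linarith

theorem rr_gt (z : ℝ) : z < rr z := by
  have := rr_eq z; have := mm_pos z; linarith

/-- variance is positive -/
theorem bb_pos (z : ℝ) : 0 < bb z := by
  refine lemmaU (P := bb) (P' := fun z => -(rr z * (mm z ^ 2 - bb z))) (c := 1)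
    (C := 1) (k := 0) one_pos bb_hd ?_ ?_ ?_ z
  · intro y hy
    have h1 := rr_pos y
    have h2 := mm_pos y
    have : 0 < mm y ^ 2 := by positivity
    have : 0 < rr y * (mm y ^ 2 - bb y) := mul_pos h1 (by linarith)
    linarith
  · intro y hy0 hy
    have h1 := rr_pos y
    have h3 := rr_gt y
    have h4 : 0 ≤ rr y * mm y ^ 2 := by positivity
    nlinarith
  · intro y hy
    have h1 := mm_lt (z := y) (by linarith)
    have h2 := mm_pos y
    have h3 : mm y < 1 := h1.trans_le (by rw [div_le_one (by linarith)]; exact hy)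
    have h4 := one_sub_zm y
    have h5 := rr_eq y
    unfold bb
    rw [h5]
    nlinarith

theorem bb_lt_one (z : ℝ) : bb z < 1 := by
  have := mul_pos (rr_pos z) (mm_pos z)
  unfold bb; linarith

/-- the third cumulant is positive -/
theorem aa_pos (z : ℝ) : 0 < mm z ^ 2 - bb z := by
  have hd : ∀ z, HasDerivAt (fun z => mm z ^ 2 - bb z)
      (rr z * (mm z ^ 2 - bb z) - 2 * mm z * bb z) z := by
    intro z
    have := ((mm_hd z).pow 2).sub (bb_hd z)
    exact this.congr_deriv (by simp; ring)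
  refine lemmaU (P := fun z => mm z ^ 2 - bb z) (c := 1)
    (C := 1) (k := 0) one_pos hd ?_ ?_ ?_ z
  · intro y hy
    have h1 := rr_pos y
    have h2 := mm_pos y
    have h3 := bb_pos y
    have h4 : 0 < mm y * bb y := mul_pos h2 h3
    have h5 : rr y * (mm y ^ 2 - bb y) ≤ 0 := mul_nonpos_of_nonneg_of_nonpos h1.le hy
    linarith
  · intro y hy0 hy
    have h1 := rr_pos y
    have h2 := mm_pos y
    have h3 := bb_pos y
    have h4 : 0 < mm y * bb y := mul_pos h2 h3
    have h5 := rr_gt y
    have h6 : (rr y - y) * (mm y ^ 2 - bb y) ≤ 0 := mul_nonpos_of_nonneg_of_nonpos (by linarith) hy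
    linarith
  · intro y _
    have h3 := bb_lt_one y
    have h2 : 0 ≤ mm y ^ 2 := sq_nonneg _
    simp only [pow_zero]
    linarith

theorem bb_eq (z : ℝ) : bb z = 1 - mm z ^ 2 - z * mm z := by
  have := rr_eq z
  unfold bb; rw [this]; ring

/-- `1/m` -/
noncomputable def nn (z : ℝ) : ℝ := 1 / mm z

theorem nn_pos (z : ℝ) : 0 < nn z := one_div_pos.mpr (mm_pos z)

theorem nn_hd (z : ℝ) : HasDerivAt nn (bb z / mm z ^ 2) z := by
  have h := (mm_hd z).inv (mm_pos z).ne'
  have h2 : nn = (mm)⁻¹ := by funext y; simp [nn]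
  rw [h2]
  exact h.congr_deriv (by rw [neg_neg])

theorem nd_lt_one (z : ℝ) : bb z / mm z ^ 2 < 1 := by
  have h := aa_pos z
  have hm := mm_pos z
  rw [div_lt_one (by positivity)]
  linarith

theorem nn_le {z : ℝ} (hz : 1 ≤ z) : nn z ≤ (1 + nn 1) * (1 + z) := by
  have hmono : MonotoneOn (fun y => y - nn y) (Ici 1) := by
    refine monotoneOn_of_deriv_nonneg (convex_Ici 1) ?_ ?_ ?_
    · intro y _
      exact ((hasDerivAt_id y).sub (nn_hd y)).continuousAt.continuousWithinAt
    · intro y _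
      exact ((hasDerivAt_id y).sub (nn_hd y)).differentiableAt.differentiableWithinAt
    · intro y _
      have := ((hasDerivAt_id y).sub (nn_hd y)).deriv
      have h2 := nd_lt_one y
      have h3 : deriv (fun y => y - nn y) y = 1 - bb y / mm y ^ 2 := this
      rw [h3]; linarith
  have h := hmono (by simp) (show z ∈ Ici (1:ℝ) from hz) hz
  have h1 := nn_pos 1
  simp only at h
  nlinarith

/-- the function whose positivity says that `1/m` is convex -/
noncomputable def ww (z : ℝ) : ℝ := bb z + bb z ^ 2 + bb z * mm z ^ 2 - mm z ^ 2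

theorem ww_alg {b μ y r : ℝ} (hm : 0 < μ) (e3 : y = (1 - b - μ ^ 2) / μ) (e4 : r = (1 - b) / μ) :
    ((-(r * (μ ^ 2 - b)) + 2 * b * -(r * (μ ^ 2 - b)) + (-(r * (μ ^ 2 - b)) * μ ^ 2 + b * (2 * μ * -b))
      - 2 * μ * -b) * μ ^ 3 - (b + b ^ 2 + b * μ ^ 2 - μ ^ 2) * (3 * μ ^ 2 * -b)) / (μ ^ 3) ^ 2 =
    (2 / μ - y) * ((b + b ^ 2 + b * μ ^ 2 - μ ^ 2) / μ ^ 3) - 2 * (b / μ ^ 2) * (1 - b / μ ^ 2) := by
  subst e3 e4
  field_simp
  ring

theorem ww_alg2 {b μ y : ℝ} (hm : 0 < μ) (e3 : y = (1 - b - μ ^ 2) / μ) :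
    (b + b ^ 2 + b * μ ^ 2 - μ ^ 2) / μ ^ 3 = (2 / μ - y) * (b / μ ^ 2) - 1 / μ := by
  subst e3
  field_simp
  ring

theorem ww_pos (z : ℝ) : 0 < ww z := by
  have hkey : 0 < ww z / mm z ^ 3 := by
    refine lemmaU (P := fun z => ww z / mm z ^ 3)
      (P' := fun z => (2 / mm z - z) * (ww z / mm z ^ 3) - 2 * (bb z / mm z ^ 2) * (1 - bb z / mm z ^ 2))
      (c := 1) (C := 1 + nn 1) (k := 1) one_pos ?_ ?_ ?_ ?_ z
    · intro y
      have hm := mm_pos y
      have h := (((bb_hd y).add ((bb_hd y).pow 2)).add ((bb_hd y).mul ((mm_hd y).pow 2))).sub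
        ((mm_hd y).pow 2)
      have h2 := h.div ((mm_hd y).pow 3) (pow_pos hm 3).ne'
      refine h2.congr_deriv ?_
      have e1 := bb_eq y
      have e2 := rr_eq y
      have e3 : y = (1 - bb y - mm y ^ 2) / mm y := by field_simp; linarith
      have e4 : rr y = (1 - bb y) / mm y := by
        have hb : bb y = 1 - rr y * mm y := rfl
        field_simp; linarith
      have h3 := ww_alg hm e3 e4
      simp only [ww, Pi.add_apply, Pi.sub_apply, Pi.mul_apply, Pi.pow_apply]
      rw [← h3]
      push_cast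
      ring
    · intro y hy
      have h1 := mm_pos y
      have h2 := one_sub_zm y
      have h3 : 0 < 2 / mm y - y := by
        have : y < 1 / mm y := by rw [lt_div_iff₀ h1]; linarith
        have h4 : 2 / mm y = 2 * (1 / mm y) := by ring
        have h5 : 0 < 1 / mm y := by positivity
        rw [h4]; linarith
      have h5 := nd_lt_one y
      have h6 : 0 < bb y / mm y ^ 2 := div_pos (bb_pos y) (by positivity)
      have h7 : (2 / mm y - y) * (ww y / mm y ^ 3) ≤ 0 := mul_nonpos_of_nonneg_of_nonpos h3.le hy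
      have h8 : 0 < 2 * (bb y / mm y ^ 2) * (1 - bb y / mm y ^ 2) := by
        have : 0 < 1 - bb y / mm y ^ 2 := by linarith
        positivity
      linarith
    · intro y hy0 hy
      have h1 := mm_pos y
      have h2 := one_sub_zm y
      have h3 : y < 1 / mm y := by rw [lt_div_iff₀ h1]; linarith
      have h4 : 2 / mm y = 2 * (1 / mm y) := by ring
      have h5 := nd_lt_one y
      have h6 : 0 < bb y / mm y ^ 2 := div_pos (bb_pos y) (by positivity)
      have h7 : (2 / mm y - y - y) * (ww y / mm y ^ 3) ≤ 0 :=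
        mul_nonpos_of_nonneg_of_nonpos (by rw [h4]; linarith) hy
      have h8 : 0 < 2 * (bb y / mm y ^ 2) * (1 - bb y / mm y ^ 2) := by
        have : 0 < 1 - bb y / mm y ^ 2 := by linarith
        positivity
      linarith
    · intro y hy
      have h1 := mm_pos y
      have h2 := one_sub_zm y
      have h3 : y < 1 / mm y := by rw [lt_div_iff₀ h1]; linarith
      have h4 := nn_le hy
      have h6 : 0 < bb y / mm y ^ 2 := div_pos (bb_pos y) (by positivity)
      have e1 := bb_eq y
      have e3 : y = (1 - bb y - mm y ^ 2) / mm y := by field_simp; linarith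
      have h7 : ww y / mm y ^ 3 = (2 / mm y - y) * (bb y / mm y ^ 2) - nn y := ww_alg2 h1 e3
      have h8 : 0 < (2 / mm y - y) * (bb y / mm y ^ 2) := by
        have : 0 < 2 / mm y - y := by
          have h4 : 2 / mm y = 2 * (1 / mm y) := by ring
          have h5 : 0 < 1 / mm y := by positivity
          rw [h4]; linarith
        positivity
      simp only [pow_one]
      linarith
  have hm : 0 < mm z ^ 3 := by have := mm_pos z; positivity
  have := mul_pos hkey hm
  rwa [div_mul_cancel₀ _ hm.ne'] at this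

end Vale.Agent.P254.One
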