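import Mathlib
import Vale.Agent.P254.One.Pos

namespace Vale.Agent.P254.One

open MeasureTheory Set Filter Topology

noncomputable section

def xx (z : ℝ) : ℝ := (1 - bb z) / bb z
def qq (z : ℝ) : ℝ := bb z / (mm z ^ 2 - bb z)
def mu (z : ℝ) : ℝ := (mm z ^ 2 - bb z) / mm z
def vv (z : ℝ) : ℝ := qq z - xx z / 2

theorem xx_pos (z : ℝ) : 0 < xx z := div_pos (by have := bb_lt_one z; linarith) (bb_pos z)
theorem qq_pos (z : ℝ) : 0 < qq z := div_pos (bb_pos z) (aa_pos z)
theorem mu_pos (z : ℝ) : 0 < mu z := div_pos (aa_pos z) (mm_pos z)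

theorem rr_eq2 (z : ℝ) : rr z = (1 - bb z) / mm z := by
  have hm := mm_pos z
  have hb : bb z = 1 - rr z * mm z := rfl
  field_simp; linarith

theorem z_eq2 (z : ℝ) : z = (1 - bb z - mm z ^ 2) / mm z := by
  have hm := mm_pos z
  have e1 := bb_eq z
  field_simp; linarith

theorem vv_pos (z : ℝ) : 0 < vv z := by
  have h1 := bb_pos z
  have h2 := aa_pos z
  have h3 := ww_pos z
  have : vv z = ww z / (2 * bb z * (mm z ^ 2 - bb z)) := by
    unfold vv qq xx ww
    field_simp
    ring
  rw [this]; positivity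

theorem xx_hd (z : ℝ) : HasDerivAt xx (mu z * (xx z * (1 + xx z))) z := by
  have h1 := bb_pos z
  have h2 := mm_pos z
  have h := ((bb_hd z).const_sub 1).div (bb_hd z) h1.ne'
  refine h.congr_deriv ?_
  rw [rr_eq2 z]
  simp only [mu, xx]
  field_simp
  ring

theorem qq_hd (z : ℝ) : HasDerivAt qq (mu z * (qq z * (1 + qq z) * (2 * vv z))) z := by
  have h1 := bb_pos z
  have h2 := mm_pos z
  have h3 := aa_pos z
  have h := (bb_hd z).div (((mm_hd z).pow 2).sub (bb_hd z)) h3.ne'
  refine h.congr_deriv ?_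
  rw [rr_eq2 z]
  simp only [mu, qq, vv, xx, Pi.sub_apply, Pi.pow_apply]
  push_cast
  field_simp
  ring

theorem z_eq3 (z : ℝ) : z = mu z * (xx z * qq z - qq z - 1) := by
  have h1 := bb_pos z
  have h2 := mm_pos z
  have h3 := aa_pos z
  conv_lhs => rw [z_eq2 z]
  simp only [mu, qq, xx]
  field_simp
  ring

theorem vv_hd (z : ℝ) :
    HasDerivAt vv (mu z * (2 * vv z * qq z * (1 + qq z) - xx z * (1 + xx z) / 2)) z := by
  have h := (qq_hd z).sub ((xx_hd z).div_const 2)
  exact h.congr_deriv (by ring)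

theorem lemmaF {P D : ℝ → ℝ} {c C : ℝ} {k : ℕ} (hc : 0 < c)
    (hd : ∀ z, HasDerivAt P (mu z * D z) z)
    (h1 : ∀ z, P z ≤ 0 → D z < 0)
    (h2 : ∀ z, 0 < xx z * qq z - qq z - 1 → P z ≤ 0 → D z ≤ c * (xx z * qq z - qq z - 1) * P z)
    (hb : ∀ z, 1 ≤ z → -(C * (1 + z) ^ k) ≤ P z) (z : ℝ) : 0 < P z := by
  refine lemmaU hc hd (fun y hy => mul_neg_of_pos_of_neg (mu_pos y) (h1 y hy)) ?_ hb z
  intro y hy0 hy
  have h3 := z_eq3 y
  have h4 := mu_pos y
  have h5 : 0 < xx y * qq y - qq y - 1 := by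
    by_contra hcon
    rw [not_lt] at hcon
    have : mu y * (xx y * qq y - qq y - 1) ≤ 0 := mul_nonpos_of_nonneg_of_nonpos h4.le hcon
    linarith
  have h6 := h2 y h5 hy
  calc mu y * D y ≤ mu y * (c * (xx y * qq y - qq y - 1) * P y) := mul_le_mul_of_nonneg_left h6 h4.le
    _ = c * (mu y * (xx y * qq y - qq y - 1)) * P y := by ring
    _ = c * y * P y := by rw [← h3]

theorem vv_lt_one (z : ℝ) : vv z < 1 := by
  have key : 0 < (1 - vv z) / ((1 + xx z) * (1 + qq z)) := by
    refine lemmaF (P := fun z => (1 - vv z) / ((1 + xx z) * (1 + qq z)))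
      (D := fun z => (-(2 * vv z * qq z * (1 + qq z) - xx z * (1 + xx z) / 2)
        - (1 - vv z) * (xx z + 2 * qq z * vv z)) / ((1 + xx z) * (1 + qq z)))
      (c := 1/2) (C := 1) (k := 0) (by norm_num) ?_ ?_ ?_ ?_ z
    · intro y
      have hx := xx_pos y
      have hq := qq_pos y
      have hpos : (1 + xx y) * (1 + qq y) ≠ 0 := by positivity
      have h := ((vv_hd y).const_sub 1).div (((xx_hd y).const_add 1).mul ((qq_hd y).const_add 1)) hpos
      refine h.congr_deriv ?_
      simp only [Pi.mul_apply]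
      field_simp
      try ring
    · intro y hy
      have hx := xx_pos y
      have hq := qq_pos y
      have hv := vv_pos y
      have hpos : 0 < (1 + xx y) * (1 + qq y) := by positivity
      have h1 : 1 - vv y ≤ 0 := by
        by_contra hcon
        rw [not_le] at hcon
        have : 0 < (1 - vv y) / ((1 + xx y) * (1 + qq y)) := div_pos hcon hpos
        linarith
      refine div_neg_of_neg_of_pos ?_ hpos
      have e : qq y = xx y / 2 + vv y := by unfold vv; ring
      rw [e]
      obtain ⟨s, hs⟩ : ∃ s, vv y = 1 + s := ⟨vv y - 1, by ring⟩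
      have hs0 : 0 ≤ s := by linarith
      rw [hs]
      have : 0 < 4 * (1 + s) * (xx y / 2 + (1 + s)) + s * xx y ^ 2 / 2 + xx y * (1 / 2 + s + s ^ 2) := by
        positivity
      linarith
    · intro y hy0 hy
      have hx := xx_pos y
      have hq := qq_pos y
      have hv := vv_pos y
      have hpos : 0 < (1 + xx y) * (1 + qq y) := by positivity
      have h1 : 1 - vv y ≤ 0 := by
        by_contra hcon
        rw [not_le] at hcon
        have : 0 < (1 - vv y) / ((1 + xx y) * (1 + qq y)) := div_pos hcon hpos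
        linarith
      rw [← mul_div_assoc, div_le_div_iff_of_pos_right hpos]
      have e : qq y = xx y / 2 + vv y := by unfold vv; ring
      obtain ⟨s, hs⟩ : ∃ s, vv y = 1 + s := ⟨vv y - 1, by ring⟩
      have hs0 : 0 ≤ s := by linarith
      rw [e, hs]
      have : 0 ≤ 4 * (1 + s) * (xx y / 2 + (1 + s)) + s * xx y ^ 2 / 4 + xx y * (1 / 2 + s / 2 + s ^ 2 / 2)
        + s * (xx y / 2 + (1 + s) + 1) / 2 := by positivity
      linarith
    · intro y hy
      have hx := xx_pos y
      have hq := qq_pos y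
      have hpos : 0 < (1 + xx y) * (1 + qq y) := by positivity
      rw [le_div_iff₀ hpos]
      have : vv y ≤ qq y := by unfold vv; linarith
      simp only [pow_zero]
      nlinarith [mul_pos hx hq]
  have hx := xx_pos z
  have hq := qq_pos z
  have hpos : 0 < (1 + xx z) * (1 + qq z) := by positivity
  have := mul_pos key hpos
  rw [div_mul_cancel₀ _ hpos.ne'] at this
  linarith

end

end Vale.Agent.P254.One
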