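import Mathlib
import Vale.Agent.P254.One.Flow
import Vale.Agent.P254.One.F2

/-!
P254, one-dimensional facts, continued: the diagonal coefficient `c`, the coefficient `k`,
and the two-point inequality `c_ij ≤ √(c_i c_j)` on the actual extremal curve.
-/

namespace Vale.Agent.P254.One

open Filter Set Topology

noncomputable section

theorem bb_tendsto_top : Tendsto bb atTop (𝓝 0) := by
  have h1 : Tendsto (fun z : ℝ => (1 / z) ^ 2) atTop (𝓝 0) := by
    have : Tendsto (fun z : ℝ => 1 / z) atTop (𝓝 0) :=
      tendsto_const_nhds.div_atTop tendsto_id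
    simpa using this.pow 2
  refine squeeze_zero' (Eventually.of_forall fun z => (bb_pos z).le) ?_ h1
  filter_upwards [eventually_gt_atTop 0] with z hz
  have h2 := aa_pos z
  have h3 := mm_lt hz
  have h4 := mm_pos z
  have : mm z ^ 2 ≤ (1 / z) ^ 2 := pow_le_pow_left₀ h4.le h3.le 2
  linarith

theorem xx_eq (z : ℝ) : xx z = 1 / bb z - 1 := by
  have := (bb_pos z).ne'
  unfold xx; field_simp

theorem xx_tendsto_top : Tendsto xx atTop atTop := by
  have h : Tendsto (fun z => (bb z)⁻¹) atTop atTop := by
    refine Tendsto.inv_tendsto_nhdsGT_zero ?_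
    rw [tendsto_nhdsWithin_iff]
    exact ⟨bb_tendsto_top, Eventually.of_forall fun z => bb_pos z⟩
  have h2 : Tendsto (fun z => (bb z)⁻¹ + (-1)) atTop atTop :=
    tendsto_atTop_add_const_right _ _ h
  refine h2.congr fun z => ?_
  rw [xx_eq]; ring

theorem curve : F2.Curve xx qq (fun z => mu z * (xx z * (1 + xx z))) where
  hx z := xx_hd z
  hq z := by
    refine (qq_hd z).congr_deriv ?_
    have h1 := xx_pos z
    have h2 : (1 + xx z) ≠ 0 := by positivity
    unfold vv
    field_simp
  ω_pos z := by
    have h1 := xx_pos z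
    have h2 := mu_pos z
    positivity
  x_pos := xx_pos
  g_pos z := by have := vv_pos z; unfold vv at this; linarith
  g_lt z := by have := vv_lt_one z; unfold vv at this; linarith
  x_top := xx_tendsto_top

/-- the coefficient `k = s²/...`: `k = x²/(q(1+q))` -/
def kk (z : ℝ) : ℝ := xx z ^ 2 / (qq z * (1 + qq z))

/-- the diagonal coefficient `c = ½ dq/dx` -/
def cc (z : ℝ) : ℝ := qq z * (1 + qq z) * vv z / (xx z * (1 + xx z))

/-- the off-diagonal coefficient `c_ij = ¼ - ½ β_i β_j w'[β_i,β_j] = ½ q[x_i,x_j]`,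
on the diagonal `c` -/
def cij (y z : ℝ) : ℝ := if y = z then cc y else (qq y - qq z) / (2 * (xx y - xx z))

theorem kk_pos (z : ℝ) : 0 < kk z := by
  have h1 := xx_pos z
  have h2 := qq_pos z
  unfold kk; positivity

theorem cc_pos (z : ℝ) : 0 < cc z := by
  have h1 := xx_pos z
  have h2 := qq_pos z
  have h3 := vv_pos z
  unfold cc; positivity

theorem cc_eq (z : ℝ) : cc z = F2.Y0 (xx z) (qq z) / 2 := by
  have h1 := xx_pos z
  have h2 : (1 + xx z) ≠ 0 := by positivity
  unfold cc F2.Y0 F2.PA F2.PB vv
  field_simp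

/-- the one-dimensional identity `k c = w' (1-β)` -/
theorem kk_mul_cc (z : ℝ) : kk z * cc z = vv z * (1 - bb z) := by
  have h1 := xx_pos z
  have h2 := qq_pos z
  have h4 := bb_pos z
  have h3 : bb z = 1 / (1 + xx z) := by rw [xx_eq]; field_simp; ring
  rw [h3]
  unfold kk cc
  field_simp
  ring

theorem xx_strictMono : StrictMono xx := F2.x_mono curve

theorem cij_comm (y z : ℝ) : cij y z = cij z y := by
  unfold cij
  by_cases h : y = z
  · subst h; rfl
  · rw [if_neg h, if_neg (Ne.symm h)]
    rw [← neg_sub (qq z) (qq y), ← neg_sub (xx z) (xx y), mul_neg, neg_div_neg_eq]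

theorem cij_self (z : ℝ) : cij z z = cc z := by simp [cij]

theorem qq_strictMono : StrictMono qq := by
  refine strictMono_of_deriv_pos (fun z => ?_)
  rw [(qq_hd z).deriv]
  have h1 := qq_pos z
  have h2 := mu_pos z
  have h3 := vv_pos z
  positivity

theorem cij_pos (y z : ℝ) : 0 < cij y z := by
  rcases lt_trichotomy y z with h | h | h
  · rw [cij_comm]
    unfold cij
    rw [if_neg h.ne']
    have h1 := xx_strictMono h
    have h2 := qq_strictMono h
    exact div_pos (by linarith) (by linarith)
  · subst h; rw [cij_self]; exact cc_pos y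
  · unfold cij
    rw [if_neg h.ne']
    have h1 := xx_strictMono h
    have h2 := qq_strictMono h
    exact div_pos (by linarith) (by linarith)

/-- **F2 = (C2)**: `c_ij ≤ √(c_ii c_jj)`. -/
theorem cij_le (y z : ℝ) : cij y z ≤ Real.sqrt (cc y) * Real.sqrt (cc z) := by
  have main : ∀ a b : ℝ, a < b → cij b a ≤ Real.sqrt (cc a) * Real.sqrt (cc b) := by
    intro a b hab
    have h := F2.two_point curve hab.le
    have hx := xx_strictMono hab
    unfold cij
    rw [if_neg hab.ne', div_le_iff₀ (by linarith)]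
    have e : Real.sqrt (cc a) * Real.sqrt (cc b)
        = F2.sY xx qq a * F2.sY xx qq b / 2 := by
      rw [cc_eq, cc_eq]
      unfold F2.sY
      rw [Real.sqrt_div (F2.Y0_pos curve a).le, Real.sqrt_div (F2.Y0_pos curve b).le,
        div_mul_div_comm, Real.mul_self_sqrt (by norm_num)]
    rw [e]
    linarith
  rcases lt_trichotomy y z with h | h | h
  · rw [cij_comm]; exact main y z h
  · subst h
    rw [cij_self, Real.mul_self_sqrt (cc_pos y).le]
  · rw [mul_comm]; exact main z y h

theorem cij_sq_le (y z : ℝ) : cij y z ^ 2 ≤ cc y * cc z := by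
  have h := pow_le_pow_left₀ (cij_pos y z).le (cij_le y z) 2
  rwa [mul_pow, Real.sq_sqrt (cc_pos y).le, Real.sq_sqrt (cc_pos z).le] at h

/-- the form with the divided difference of `w'` -/
theorem cij_eq_w (y z : ℝ) (h : y ≠ z) :
    cij y z = 1 / 4 - bb y * bb z / 2 * ((vv y - vv z) / (bb y - bb z)) := by
  have hy := bb_pos y
  have hz := bb_pos z
  have hx : xx y ≠ xx z := xx_strictMono.injective.ne h
  have hb : bb y ≠ bb z := by
    intro e; apply hx; rw [xx_eq, xx_eq, e]
  unfold cij
  rw [if_neg h]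
  have h1 : xx y - xx z ≠ 0 := sub_ne_zero.2 hx
  have h2 : bb y - bb z ≠ 0 := sub_ne_zero.2 hb
  have h3 : bb y - bb z = - (bb y * bb z * (xx y - xx z)) := by
    rw [xx_eq, xx_eq]; field_simp; ring
  have h4 : bb y * bb z * (xx y - xx z) ≠ 0 := by positivity
  rw [h3]
  unfold vv
  field_simp
  ring

end

end Vale.Agent.P254.One
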