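import Mathlib
import Vale.Agent.P254.One.Flow

namespace Vale.Agent.P254.One

open MeasureTheory Set Filter Topology

noncomputable section

theorem nd_hd (z : ℝ) : HasDerivAt (fun z => bb z / mm z ^ 2) (ww z / mm z ^ 3) z := by
  have h2 := mm_pos z
  have h := (bb_hd z).div ((mm_hd z).pow 2) (pow_pos h2 2).ne'
  refine h.congr_deriv ?_
  rw [rr_eq2 z]
  simp only [ww, Pi.pow_apply]
  push_cast
  field_simp
  ring

theorem nd_mono : Monotone (fun z => bb z / mm z ^ 2) := by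
  refine monotone_of_deriv_nonneg (fun z => (nd_hd z).differentiableAt) (fun z => ?_)
  rw [(nd_hd z).deriv]
  have h1 := ww_pos z
  have h2 := mm_pos z
  positivity

theorem xx_le : ∃ C : ℝ, 0 < C ∧ ∀ z : ℝ, 1 ≤ z → xx z ≤ C * (1 + z) ^ 2 := by
  have hd : 0 < bb 1 / mm 1 ^ 2 := div_pos (bb_pos 1) (pow_pos (mm_pos 1) 2)
  have hn := nn_pos 1
  refine ⟨(1 + nn 1) ^ 2 / (bb 1 / mm 1 ^ 2), by positivity, fun z hz => ?_⟩
  have h1 : bb 1 / mm 1 ^ 2 ≤ bb z / mm z ^ 2 := nd_mono hz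
  have h2 := nn_le hz
  have h3 := mm_pos z
  have h4 := bb_pos z
  have h5 : xx z ≤ 1 / bb z := by
    unfold xx
    exact div_le_div_of_nonneg_right (by linarith) h4.le
  have h6 : 1 / bb z ≤ (nn z) ^ 2 / (bb 1 / mm 1 ^ 2) := by
    rw [div_le_div_iff₀ h4 hd]
    have h7 : nn z ^ 2 * bb z = bb z / mm z ^ 2 := by unfold nn; field_simp
    rw [h7, one_mul]
    exact h1
  have h7 : (nn z) ^ 2 ≤ ((1 + nn 1) * (1 + z)) ^ 2 := pow_le_pow_left₀ (nn_pos z).le h2 2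
  calc xx z ≤ 1 / bb z := h5
    _ ≤ (nn z) ^ 2 / (bb 1 / mm 1 ^ 2) := h6
    _ ≤ ((1 + nn 1) * (1 + z)) ^ 2 / (bb 1 / mm 1 ^ 2) := div_le_div_of_nonneg_right h7 hd.le
    _ = (1 + nn 1) ^ 2 / (bb 1 / mm 1 ^ 2) * (1 + z) ^ 2 := by ring

def p1 (x v : ℝ) : ℝ := -3 * (1 - v) * x ^ 3 + (20 * v ^ 2 - v - 4) * x ^ 2
  + (44 * v ^ 3 + 32 * v ^ 2 - 2 * v + 1) * x + (32 * v ^ 4 + 44 * v ^ 3 + 12 * v ^ 2 + 2 * v + 2)

def p1x (x v : ℝ) : ℝ := -9 * (1 - v) * x ^ 2 + 2 * (20 * v ^ 2 - v - 4) * x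
  + (44 * v ^ 3 + 32 * v ^ 2 - 2 * v + 1)

def p1v (x v : ℝ) : ℝ := 3 * x ^ 3 + (40 * v - 1) * x ^ 2
  + (132 * v ^ 2 + 64 * v - 2) * x + (128 * v ^ 3 + 132 * v ^ 2 + 24 * v + 2)

def p1d (x v : ℝ) : ℝ := p1x x v * (x * (1 + x))
  + p1v x v * (2 * v * (x / 2 + v) * (1 + (x / 2 + v)) - x * (1 + x) / 2)

theorem qq_eq (z : ℝ) : qq z = xx z / 2 + vv z := by unfold vv; ring

theorem p1_hd (z : ℝ) : HasDerivAt (fun z => p1 (xx z) (vv z)) (mu z * p1d (xx z) (vv z)) z := by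
  have hx := xx_hd z
  have hv := vv_hd z
  have h := (((((hv.const_sub 1).const_mul (-3)).mul (hx.pow 3)).add
    (((((hv.pow 2).const_mul 20).sub hv).sub_const 4).mul (hx.pow 2))).add
    ((((((hv.pow 3).const_mul 44).add ((hv.pow 2).const_mul 32)).sub (hv.const_mul 2)).add_const 1).mul hx)).add
    ((((((hv.pow 4).const_mul 32).add ((hv.pow 3).const_mul 44)).add ((hv.pow 2).const_mul 12)).add
    (hv.const_mul 2)).add_const 2)
  refine h.congr_deriv ?_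
  simp only [p1d, p1x, p1v, Pi.mul_apply, Pi.pow_apply, Pi.add_apply, Pi.sub_apply]
  rw [qq_eq z]
  push_cast
  ring

def sig1 (x v w : ℝ) : ℝ :=
    2 * x^4 * w^6 + 11 * x^4 * v^1 * w^5 + 24 * x^4 * v^2 * w^4 + 26 * x^4 * v^3 * w^3 +
      14 * x^4 * v^4 * w^2 + 3 * x^4 * v^5 * w^1 + 8 * x^3 * w^6 + 39 * x^3 * v^1 * w^5 +
      103 * x^3 * v^2 * w^4 + 158 * x^3 * v^3 * w^3 + 126 * x^3 * v^4 * w^2 +
      43 * x^3 * v^5 * w^1 + 3 * x^3 * v^6 + 10 * x^2 * w^6 + 67 * x^2 * v^1 * w^5 +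
      216 * x^2 * v^2 * w^4 + 498 * x^2 * v^3 * w^3 + 586 * x^2 * v^4 * w^2 +
      267 * x^2 * v^5 * w^1 + 20 * x^2 * v^6 + 4 * x^1 * w^6 + 61 * x^1 * v^1 * w^5 +
      269 * x^1 * v^2 * w^4 + 758 * x^1 * v^3 * w^3 + 1258 * x^1 * v^4 * w^2 +
      765 * x^1 * v^5 * w^1 + 53 * x^1 * v^6 + 22 * v^1 * w^5 + 132 * v^2 * w^4 +
      392 * v^3 * w^3 + 800 * v^4 * w^2 + 762 * v^5 * w^1 + 52 * v^6

theorem p1_id (x v : ℝ) :
    p1d x v = (x ^ 2 / 2 + 2 * x + v * (5 * x + 11) + 2 * v ^ 2) * p1 x v - sig1 x v (1 - v) := by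
  unfold p1d p1x p1v p1 sig1
  ring

theorem sig1_pos {x v w : ℝ} (hx : 0 < x) (hv : 0 < v) (hw : 0 < w) : 0 < sig1 x v w := by
  unfold sig1
  positivity

theorem p1_pos (z : ℝ) : 0 < p1 (xx z) (vv z) := by
  obtain ⟨C, hC, hxb⟩ := xx_le
  refine lemmaF (P := fun z => p1 (xx z) (vv z)) (D := fun z => p1d (xx z) (vv z))
    (c := 1) (C := 12 * (1 + C) ^ 3) (k := 6) one_pos p1_hd ?_ ?_ ?_ z
  · intro y hy
    have hx := xx_pos y
    have hv := vv_pos y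
    have hv1 := vv_lt_one y
    have hs := sig1_pos hx hv (show 0 < 1 - vv y by linarith)
    simp only [p1_id]
    have : 0 ≤ xx y ^ 2 / 2 + 2 * xx y + vv y * (5 * xx y + 11) + 2 * vv y ^ 2 := by positivity
    have := mul_nonpos_of_nonneg_of_nonpos this hy
    linarith
  · intro y hy0 hy
    have hx := xx_pos y
    have hv := vv_pos y
    have hv1 := vv_lt_one y
    have hs := sig1_pos hx hv (show 0 < 1 - vv y by linarith)
    simp only [p1_id]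
    rw [qq_eq y] at hy0 ⊢
    have : 0 ≤ (xx y ^ 2 / 2 + 2 * xx y + vv y * (5 * xx y + 11) + 2 * vv y ^ 2)
        - 1 * (xx y * (xx y / 2 + vv y) - (xx y / 2 + vv y) - 1) := by
      have : (xx y ^ 2 / 2 + 2 * xx y + vv y * (5 * xx y + 11) + 2 * vv y ^ 2)
        - 1 * (xx y * (xx y / 2 + vv y) - (xx y / 2 + vv y) - 1)
        = 5 / 2 * xx y + 4 * vv y * xx y + 12 * vv y + 2 * vv y ^ 2 + 1 := by ring
      rw [this]; positivity
    have := mul_nonpos_of_nonneg_of_nonpos this hy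
    linarith
  · intro y hy
    have hx := xx_pos y
    have hv := vv_pos y
    have hv1 := vv_lt_one y
    have h1 := hxb y hy
    have h2 : 1 + xx y ≤ (1 + C) * (1 + y) ^ 2 := by nlinarith
    have h3 : (1 + xx y) ^ 3 ≤ ((1 + C) * (1 + y) ^ 2) ^ 3 := pow_le_pow_left₀ (by linarith) h2 3
    have h4 : -(12 * (1 + xx y) ^ 3) ≤ p1 (xx y) (vv y) := by
      unfold p1
      generalize xx y = x at *
      generalize vv y = v at *
      have e1 : 0 ≤ v * x ^ 3 := by positivity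
      have e2 : 0 ≤ v ^ 2 * x ^ 2 := by positivity
      have e3 : v * x ^ 2 ≤ x ^ 2 := by nlinarith [sq_nonneg x]
      have e4 : v * x ≤ x := by nlinarith
      have e5 : 0 ≤ v ^ 3 * x := by positivity
      have e6 : 0 ≤ v ^ 2 * x := by positivity
      have e7 : 0 ≤ v ^ 4 := by positivity
      have e8 : 0 ≤ v ^ 3 := by positivity
      have e9 : 0 ≤ x ^ 3 := by positivity
      have e10 : 0 ≤ x ^ 2 := by positivity
      nlinarith
    have h5 : ((1 + C) * (1 + y) ^ 2) ^ 3 = (1 + C) ^ 3 * (1 + y) ^ 6 := by ring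
    rw [h5] at h3
    linarith

end

end Vale.Agent.P254.One
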