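import Mathlib
import Vale.Agent.P254.One.F1

namespace Vale.Agent.P254.One

open MeasureTheory Set Filter Topology

noncomputable section

theorem mu_eq (z : ℝ) : rr z * (mm z ^ 2 - bb z) = mu z * (1 - bb z) := by
  have h2 := mm_pos z
  rw [rr_eq2 z]; unfold mu; field_simp

theorem bb_hd2 (z : ℝ) : HasDerivAt bb (-(mu z * (1 - bb z))) z := by
  rw [← mu_eq]; exact bb_hd z

theorem bb_der_neg (z : ℝ) : -(mu z * (1 - bb z)) < 0 := by
  have h1 := mu_pos z
  have h2 := bb_lt_one z
  have : 0 < mu z * (1 - bb z) := mul_pos h1 (by linarith)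
  linarith

theorem bb_anti : StrictAnti bb :=
  strictAnti_of_deriv_neg (fun z => by rw [(bb_hd2 z).deriv]; exact bb_der_neg z)

theorem bb_cont : Continuous bb := continuous_iff_continuousAt.mpr fun z => (bb_hd z).continuousAt

theorem bb_tendsto_zero : Tendsto bb atTop (𝓝 0) := by
  have h : Tendsto (fun z : ℝ => (1 / z) ^ 2) atTop (𝓝 0) := by
    have : Tendsto (fun z : ℝ => 1 / z) atTop (𝓝 0) := by
      simpa using tendsto_inv_atTop_zero (𝕜 := ℝ)
    simpa using this.pow 2
  refine squeeze_zero' (Eventually.of_forall fun z => (bb_pos z).le) ?_ h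
  filter_upwards [eventually_gt_atTop 0] with z hz
  have h1 := aa_pos z
  have h2 := mm_lt hz
  have h3 := mm_pos z
  nlinarith

theorem bb_tendsto_one : Tendsto bb atBot (𝓝 1) := by
  have hg := G0_pos 0
  have hz : Tendsto (fun z : ℝ => z * phi z) atTop (𝓝 0) := by
    have h := Real.tendsto_pow_mul_exp_neg_atTop_nhds_zero 1
    refine squeeze_zero' ?_ ?_ h
    · filter_upwards [eventually_ge_atTop 0] with z hz
      exact mul_nonneg hz (phi_pos z).le
    · filter_upwards [eventually_ge_atTop 2] with z hz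
      simp only [pow_one, phi]
      refine mul_le_mul_of_nonneg_left ?_ (by linarith)
      rw [Real.exp_le_exp]
      nlinarith
  have hev : ∀ z : ℝ, phi (-z) = phi z := by intro z; simp [phi]
  have h1 : Tendsto (fun z : ℝ => 1 - phi z / G0 0 * (phi z / G0 0) - z * phi z / G0 0) atTop (𝓝 1) := by
    have := ((tendsto_const_nhds (x := (1:ℝ))).sub ((phi_tendsto.div_const (G0 0)).mul
      (phi_tendsto.div_const (G0 0)))).sub (hz.div_const (G0 0))
    simpa using this
  have h2 : Tendsto (fun z : ℝ => 1 - phi z / G0 0 * (phi z / G0 0) - (-z) * phi z / G0 0) atBot (𝓝 1) := by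
    have := h1.comp tendsto_neg_atBot_atTop
    refine this.congr fun z => ?_
    simp only [Function.comp, hev]
  refine tendsto_of_tendsto_of_tendsto_of_le_of_le' h2 tendsto_const_nhds ?_
    (Eventually.of_forall fun z => (bb_lt_one z).le)
  filter_upwards [eventually_le_atBot 0] with z hz
  have hanti : G0 0 ≤ G0 z := by
    have : Antitone G0 := antitone_of_deriv_nonpos (fun y => (G0_hd y).differentiableAt)
      (fun y => by rw [(G0_hd y).deriv]; have := phi_pos y; linarith)
    exact this hz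
  have hr : rr z ≤ phi z / G0 0 := div_le_div_of_nonneg_left (phi_pos z).le hg hanti
  have hr0 := rr_pos z
  have e : bb z = 1 - rr z * rr z - (-z) * rr z := by
    unfold bb; have := rr_eq z; rw [show mm z = rr z - z by linarith]; ring
  rw [e]
  have h3 : rr z * rr z ≤ phi z / G0 0 * (phi z / G0 0) := mul_le_mul hr hr hr0.le (hr0.le.trans hr)
  have h4 : (-z) * rr z ≤ (-z) * (phi z / G0 0) := mul_le_mul_of_nonneg_left hr (by linarith)
  have h5 : (-z) * (phi z / G0 0) = (-z) * phi z / G0 0 := by ring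
  linarith

theorem bb_surj {b : ℝ} (h0 : 0 < b) (h1 : b < 1) : ∃ z, bb z = b := by
  have e1 : ∀ᶠ z in atTop, bb z < b := bb_tendsto_zero.eventually (gt_mem_nhds h0)
  have e2 : ∀ᶠ z in atBot, b < bb z := bb_tendsto_one.eventually (lt_mem_nhds h1)
  obtain ⟨z1, hz1⟩ := e1.exists
  obtain ⟨z2, hz2⟩ := e2.exists
  have hz : z2 ≤ z1 := by
    by_contra hcon
    rw [not_le] at hcon
    have := bb_anti hcon
    linarith
  have := intermediate_value_Icc' hz bb_cont.continuousOn
  obtain ⟨z, _, hz⟩ := this ⟨hz1.le, hz2.le⟩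
  exact ⟨z, hz⟩

open Classical in
/-- inverse of `bb` -/
def ze (b : ℝ) : ℝ := if h : ∃ z, bb z = b then h.choose else 0

theorem bb_ze {b : ℝ} (hb : b ∈ Ioo (0:ℝ) 1) : bb (ze b) = b := by
  have h := bb_surj hb.1 hb.2
  unfold ze
  rw [dif_pos h]
  exact h.choose_spec

theorem ze_bb (z : ℝ) : ze (bb z) = z :=
  bb_anti.injective (bb_ze ⟨bb_pos z, bb_lt_one z⟩)

theorem ze_anti : StrictAntiOn ze (Ioo 0 1) := by
  intro a ha b hb hab
  by_contra hcon
  rw [not_lt] at hcon
  have := bb_anti.antitone hcon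
  rw [bb_ze ha, bb_ze hb] at this
  linarith

theorem ze_cont {b : ℝ} (hb : b ∈ Ioo (0:ℝ) 1) : ContinuousAt ze b := by
  have h : StrictMonoOn (fun x => -(ze x)) (Ioo 0 1) := fun x hx y hy hxy => by
    have := ze_anti hx hy hxy
    simp only; linarith
  have h2 : ContinuousAt (fun x => -(ze x)) b := by
    refine h.continuousAt_of_image_mem_nhds (isOpen_Ioo.mem_nhds hb) ?_
    have : (fun x => -(ze x)) '' Ioo 0 1 = univ := by
      ext y
      simp only [mem_image, mem_univ, iff_true]
      exact ⟨bb (-y), ⟨bb_pos _, bb_lt_one _⟩, by rw [ze_bb]; ring⟩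
    rw [this]; exact univ_mem
  have h3 : ze = fun x => -(-(ze x)) := by funext x; ring
  rw [h3]
  exact h2.neg

theorem ze_hd {b : ℝ} (hb : b ∈ Ioo (0:ℝ) 1) : HasDerivAt ze (-(mu (ze b) * (1 - b)))⁻¹ b := by
  have h := bb_hd2 (ze b)
  rw [bb_ze hb] at h
  refine h.of_local_left_inverse (ze_cont hb) ?_ ?_
  · have := bb_der_neg (ze b)
    rw [bb_ze hb] at this
    exact this.ne
  · filter_upwards [isOpen_Ioo.mem_nhds hb] with y hy
    exact bb_ze hy

/-- chain rule for functions of the variance -/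
theorem lift_hd {F : ℝ → ℝ} {D b : ℝ} (hb : b ∈ Ioo (0:ℝ) 1)
    (hF : HasDerivAt F (mu (ze b) * D) (ze b)) : HasDerivAt (fun y => F (ze y)) (-(D / (1 - b))) b := by
  have h := HasDerivAt.comp b hF (ze_hd hb)
  refine h.congr_deriv ?_
  have h1 := mu_pos (ze b)
  have h2 : 0 < 1 - b := by linarith [hb.2]
  field_simp

end

end Vale.Agent.P254.One
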