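import Mathlib
import Vale.Agent.P254.One.Inv

namespace Vale.Agent.P254.One

open MeasureTheory Set Filter Topology

noncomputable section

/-- squared skewness, as a function of `z` -/
def kz (z : ℝ) : ℝ := xx z ^ 2 / (qq z * (1 + qq z))

theorem kz_pos (z : ℝ) : 0 < kz z := by
  have h1 := xx_pos z
  have h2 := qq_pos z
  unfold kz; positivity

/-- the third moment form of the squared skewness -/
theorem kz_eq (z : ℝ) : kz z = (rr z * (mm z ^ 2 - bb z)) ^ 2 / bb z ^ 3 := by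
  have h1 := bb_pos z
  have h2 := mm_pos z
  have h3 := aa_pos z
  rw [rr_eq2 z]
  unfold kz xx qq
  have h4 : 1 + bb z / (mm z ^ 2 - bb z) = mm z ^ 2 / (mm z ^ 2 - bb z) := by
    field_simp; ring
  rw [h4]
  field_simp

/-- logarithmic speed of `kz` -/
def lz (z : ℝ) : ℝ := 2 * (1 + xx z) - 2 * (1 + 2 * qq z) * vv z

theorem kz_hd (z : ℝ) : HasDerivAt kz (mu z * (kz z * lz z)) z := by
  have h1 := xx_pos z
  have h2 := qq_pos z
  have hd : qq z * (1 + qq z) ≠ 0 := by positivity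
  have h := ((xx_hd z).pow 2).div ((qq_hd z).mul ((qq_hd z).const_add 1)) hd
  refine h.congr_deriv ?_
  simp only [kz, lz, Pi.mul_apply, Pi.pow_apply]
  push_cast
  field_simp
  ring

/-- cube root of the squared skewness -/
def az (z : ℝ) : ℝ := kz z ^ (1 / 3 : ℝ)

theorem az_pos (z : ℝ) : 0 < az z := Real.rpow_pos_of_pos (kz_pos z) _

theorem az_cube (z : ℝ) : az z ^ 3 = kz z := by
  unfold az
  rw [← Real.rpow_natCast, ← Real.rpow_mul (kz_pos z).le]
  norm_num

theorem az_hd (z : ℝ) : HasDerivAt az (mu z * (az z * lz z / 3)) z := by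
  have h := (kz_hd z).rpow_const (p := 1 / 3) (Or.inl (kz_pos z).ne')
  refine h.congr_deriv ?_
  have hk := kz_pos z
  unfold az
  rw [Real.rpow_sub hk, Real.rpow_one]
  field_simp

/-- the profile `h(b) = b k(b)^(1/3)` of the cubic family -/
def hf (b : ℝ) : ℝ := b * az (ze b)

/-- its first derivative -/
def hf1 (b : ℝ) : ℝ := az (ze b) * (1 - lz (ze b) / (3 * xx (ze b)))

/-- its second derivative -/
def hf2 (b : ℝ) : ℝ := -(az (ze b) * (1 + xx (ze b)) * p1 (xx (ze b)) (vv (ze b)) / (9 * xx (ze b) ^ 2))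

theorem xx_ze {b : ℝ} (hb : b ∈ Ioo (0:ℝ) 1) : xx (ze b) = (1 - b) / b := by
  unfold xx; rw [bb_ze hb]

theorem hf_pos {b : ℝ} (hb : b ∈ Ioo (0:ℝ) 1) : 0 < hf b := mul_pos hb.1 (az_pos _)

theorem hf2_neg {b : ℝ} : hf2 b < 0 := by
  have h1 := az_pos (ze b)
  have h2 := xx_pos (ze b)
  have h3 := p1_pos (ze b)
  unfold hf2
  have : 0 < az (ze b) * (1 + xx (ze b)) * p1 (xx (ze b)) (vv (ze b)) / (9 * xx (ze b) ^ 2) := by
    positivity
  linarith

theorem hf_hd {b : ℝ} (hb : b ∈ Ioo (0:ℝ) 1) : HasDerivAt hf (hf1 b) b := by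
  have h := (hasDerivAt_id b).mul (lift_hd hb (az_hd (ze b)))
  refine h.congr_deriv ?_
  have e := xx_ze hb
  have h0 := hb.1
  have h1 : 0 < 1 - b := by linarith [hb.2]
  simp only [id, hf1]
  rw [e]
  field_simp
  ring

theorem lz_hd (z : ℝ) : HasDerivAt lz (mu z * (2 * (xx z * (1 + xx z))
    - 2 * ((2 * (qq z * (1 + qq z) * (2 * vv z))) * vv z
      + (1 + 2 * qq z) * (2 * vv z * qq z * (1 + qq z) - xx z * (1 + xx z) / 2)))) z := by
  have h := (((xx_hd z).const_add 1).const_mul 2).sub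
    ((((((qq_hd z).const_mul 2).const_add 1).const_mul 2).mul (vv_hd z)))
  refine h.congr_deriv ?_
  ring

theorem hf1_hd {b : ℝ} (hb : b ∈ Ioo (0:ℝ) 1) : HasDerivAt hf1 (hf2 b) b := by
  have hx := xx_pos (ze b)
  have hF : HasDerivAt (fun z => az z * (1 - lz z / (3 * xx z))) _ (ze b) :=
    (az_hd (ze b)).mul (((lz_hd (ze b)).div ((xx_hd (ze b)).const_mul 3) (by positivity)).const_sub 1)
  have h := lift_hd (F := fun z => az z * (1 - lz z / (3 * xx z))) (D := (1 - b) * -(hf2 b)) hb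
    (hF.congr_deriv ?_)
  · refine h.congr_deriv ?_
    have h1 : 0 < 1 - b := by linarith [hb.2]
    field_simp
  · have e1 : 1 - b = xx (ze b) / (1 + xx (ze b)) := by
      rw [xx_ze hb]
      have h0 := hb.1
      have h1 : 0 < 1 - b := by linarith [hb.2]
      field_simp
      ring
    rw [e1]
    unfold hf2 lz p1
    rw [qq_eq (ze b)]
    field_simp
    ring

end

end Vale.Agent.P254.One
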