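import Mathlib
import Vale.Agent.P254.One.Prof

namespace Vale.Agent.P254.One

open MeasureTheory Set Filter Topology

noncomputable section

/-- the function `m(b) = b (1 - b) / h(b)` -/
def mf (b : ℝ) : ℝ := b * (1 - b) / hf b

theorem mf_eq {b : ℝ} (hb : b ∈ Ioo (0:ℝ) 1) : mf b = (1 - b) / az (ze b) := by
  have h0 := hb.1
  have := az_pos (ze b)
  unfold mf hf; field_simp

/-- the profile equation -/
theorem mf_hd {b : ℝ} (hb : b ∈ Ioo (0:ℝ) 1) :
    HasDerivAt mf (hf b * hf2 b / 2 + hf1 b ^ 2 / 4) b := by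
  have ha := az_pos (ze b)
  have hx := xx_pos (ze b)
  have hq := qq_pos (ze b)
  have h := ((hasDerivAt_id b).const_sub 1).div (lift_hd hb (az_hd (ze b))) ha.ne'
  have h2 : HasDerivAt (fun b => (1 - b) / az (ze b)) _ b := h
  have h3 : (fun b => (1 - b) / az (ze b)) =ᶠ[𝓝 b] mf := by
    filter_upwards [isOpen_Ioo.mem_nhds hb] with y hy
    rw [mf_eq hy]
  have h4 := h2.congr_of_eventuallyEq h3.symm
  refine h4.congr_deriv ?_
  have e0 : b = 1 / (1 + xx (ze b)) := by
    rw [xx_ze hb]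
    have h0 := hb.1
    have h1 : 0 < 1 - b := by linarith [hb.2]
    field_simp
    ring
  have e1 : 1 - b = xx (ze b) / (1 + xx (ze b)) := by
    rw [xx_ze hb]
    have h0 := hb.1
    have h1 : 0 < 1 - b := by linarith [hb.2]
    field_simp
    ring
  have hc : az (ze b) ^ 3 * (qq (ze b) * (1 + qq (ze b))) = xx (ze b) ^ 2 := by
    rw [az_cube (ze b)]; unfold kz; field_simp
  have key : (3 * xx (ze b) - lz (ze b)) ^ 2 - 2 * p1 (xx (ze b)) (vv (ze b)) =
      12 * (qq (ze b) * (1 + qq (ze b))) * (lz (ze b) - 3) := by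
    unfold lz p1
    rw [qq_eq (ze b)]
    ring
  have e2 : hf b * hf2 b / 2 + hf1 b ^ 2 / 4 =
      az (ze b) ^ 2 * ((3 * xx (ze b) - lz (ze b)) ^ 2 - 2 * p1 (xx (ze b)) (vv (ze b)))
        / (36 * xx (ze b) ^ 2) := by
    have e3 : hf b = az (ze b) / (1 + xx (ze b)) := by
      have h5 : hf b = b * az (ze b) := rfl
      rw [h5]
      have h6 : b * az (ze b) = 1 / (1 + xx (ze b)) * az (ze b) := by rw [← e0]
      rw [h6]; ring
    rw [e3]
    unfold hf1 hf2
    field_simp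
    ring
  rw [e2, key]
  simp only [id]
  rw [e1]
  generalize az (ze b) = a at *
  generalize xx (ze b) = x at *
  generalize qq (ze b) = q at *
  generalize lz (ze b) = l at *
  have hx1 : 0 < 1 + x := by positivity
  field_simp
  rw [← hc]
  ring

/-- entropy deficit of the truncated Gaussian, as a function of `z` -/
def wz (z : ℝ) : ℝ := -(bb z + mm z ^ 2) / 2 - Real.log (rr z) - Real.log (bb z) / 2

theorem wz_hd (z : ℝ) : HasDerivAt wz (mu z * (-((1 - bb z) * vv z))) z := by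
  have h1 := bb_pos z
  have h2 := mm_pos z
  have h3 := aa_pos z
  have h4 := rr_pos z
  have h := (((((bb_hd z).add ((mm_hd z).pow 2)).neg).div_const 2).sub ((rr_hd z).log h4.ne')).sub
    (((bb_hd z).log h1.ne').div_const 2)
  refine h.congr_deriv ?_
  have e : mm z = mm z := rfl
  unfold mu vv qq xx
  push_cast
  have e4 := rr_eq2 z
  rw [e4]
  have h5 : 0 < 1 - bb z := by have := bb_lt_one z; linarith
  field_simp
  ring

/-- entropy deficit as a function of the variance -/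
def wf (b : ℝ) : ℝ := wz (ze b)
def wf1 (b : ℝ) : ℝ := vv (ze b)
def wf2 (b : ℝ) : ℝ := -((2 * vv (ze b) * qq (ze b) * (1 + qq (ze b)) - xx (ze b) * (1 + xx (ze b)) / 2) / (1 - b))

theorem wf_hd {b : ℝ} (hb : b ∈ Ioo (0:ℝ) 1) : HasDerivAt wf (wf1 b) b := by
  have h := lift_hd hb (wz_hd (ze b))
  refine h.congr_deriv ?_
  rw [bb_ze hb]
  have h1 : 0 < 1 - b := by linarith [hb.2]
  unfold wf1
  field_simp

theorem wf1_hd {b : ℝ} (hb : b ∈ Ioo (0:ℝ) 1) : HasDerivAt wf1 (wf2 b) b :=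
  lift_hd hb (vv_hd (ze b))

theorem wf1_pos (b : ℝ) : 0 < wf1 b := vv_pos _
theorem wf1_lt (b : ℝ) : wf1 b < 1 := vv_lt_one _

/-- squared skewness as a function of the variance -/
def kf (b : ℝ) : ℝ := kz (ze b)

theorem kf_pos (b : ℝ) : 0 < kf b := kz_pos _

/-- the entropy equation -/
theorem wf_ode {b : ℝ} (hb : b ∈ Ioo (0:ℝ) 1) :
    kf b / 4 = wf1 b * (1 - b) + wf2 b * b ^ 2 * kf b / 2 := by
  have hx := xx_pos (ze b)
  have hq := qq_pos (ze b)
  have e0 : b = 1 / (1 + xx (ze b)) := by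
    rw [xx_ze hb]
    have h0 := hb.1
    have h1 : 0 < 1 - b := by linarith [hb.2]
    field_simp
    ring
  have e1 : 1 - b = xx (ze b) / (1 + xx (ze b)) := by
    rw [xx_ze hb]
    have h0 := hb.1
    have h1 : 0 < 1 - b := by linarith [hb.2]
    field_simp
    ring
  have e2 : b ^ 2 = 1 / (1 + xx (ze b)) ^ 2 := by
    have h6 : b ^ 2 = (1 / (1 + xx (ze b))) ^ 2 := by rw [← e0]
    rw [h6, div_pow, one_pow]
  unfold kf kz wf1 wf2
  rw [e1, e2]
  field_simp
  ring

end

end Vale.Agent.P254.One
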