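import Mathlib
import Vale.Agent.P254.One.Prof2

namespace Vale.Agent.P254.One

open MeasureTheory Set Filter Topology

noncomputable section

/-- `(1 - w') / β` is bounded -/
theorem one_sub_vv_le (z : ℝ) : (1 + xx z) * (1 - vv z) ≤ 63 := by
  have hx := xx_pos z
  have hv := vv_pos z
  have hv1 := vv_lt_one z
  have hp := p1_pos z
  unfold p1 at hp
  generalize xx z = x at *
  generalize vv z = v at *
  rcases le_or_gt x 1 with h | h
  · nlinarith
  · have hx2 : 0 < x ^ 2 := by positivity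
    have e3 : v ^ 2 ≤ 1 := by nlinarith
    have e4 : v ^ 3 ≤ 1 := by nlinarith [mul_pos hv hv]
    have e5 : v ^ 4 ≤ 1 := by nlinarith [mul_pos hv hv]
    have h3 : 3 * (1 - v) * x ^ 3 < 16 * x ^ 2 + 77 * x + 92 := by
      have f1 : (20 * v ^ 2 - v - 4) * x ^ 2 ≤ 16 * x ^ 2 :=
        mul_le_mul_of_nonneg_right (by linarith) hx2.le
      have f2 : (44 * v ^ 3 + 32 * v ^ 2 - 2 * v + 1) * x ≤ 77 * x :=
        mul_le_mul_of_nonneg_right (by linarith) hx.le
      linarith
    have h4 : 16 * x ^ 2 + 77 * x + 92 ≤ 185 * x ^ 2 := by nlinarith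
    have h5 : 3 * (1 - v) * x < 185 := by
      have : (3 * (1 - v) * x) * x ^ 2 < 185 * x ^ 2 := by
        calc (3 * (1 - v) * x) * x ^ 2 = 3 * (1 - v) * x ^ 3 := by ring
          _ < _ := h3
          _ ≤ _ := h4
      exact lt_of_mul_lt_mul_right this hx2.le
    nlinarith

theorem lz_eq (z : ℝ) : lz z = 2 * ((1 + xx z) * (1 - vv z) - 2 * vv z ^ 2) := by
  unfold lz
  rw [qq_eq z]
  ring

theorem lz_le (z : ℝ) : lz z ≤ 126 := by
  have := one_sub_vv_le z
  have := sq_nonneg (vv z)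
  rw [lz_eq]; linarith

theorem lz_ge (z : ℝ) : -4 ≤ lz z := by
  have h1 := xx_pos z
  have h2 := vv_pos z
  have h3 := vv_lt_one z
  rw [lz_eq]
  nlinarith [mul_pos (show 0 < 1 + xx z by linarith) (show 0 < 1 - vv z by linarith)]

theorem kz_lt (z : ℝ) : kz z < 4 := by
  have h1 := xx_pos z
  have h2 := vv_pos z
  have h3 := qq_pos z
  unfold kz
  rw [div_lt_iff₀ (by positivity), qq_eq z]
  nlinarith

theorem az_lt (z : ℝ) : az z < 2 := by
  by_contra hcon
  rw [not_lt] at hcon
  have h1 := az_cube z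
  have h2 := kz_lt z
  have h3 : (2:ℝ) ^ 3 ≤ az z ^ 3 := pow_le_pow_left₀ (by norm_num) hcon 3
  linarith

theorem kz_ge (z : ℝ) : (1 - bb z) ^ 2 / 2 ≤ kz z := by
  have h1 := xx_pos z
  have h2 := vv_pos z
  have h3 := vv_lt_one z
  have h4 := qq_pos z
  have hb := bb_pos z
  have hb1 := bb_lt_one z
  have e : 1 - bb z = xx z / (1 + xx z) := by
    unfold xx
    field_simp
    ring
  rw [e, div_pow, div_div]
  unfold kz
  refine div_le_div_of_nonneg_left (by positivity) (by positivity) ?_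
  rw [qq_eq z]
  nlinarith

theorem xx_tendsto : Tendsto xx atTop atTop := by
  have h1 : Tendsto (fun z => (bb z)⁻¹) atTop atTop := by
    refine tendsto_inv_nhdsGT_zero.comp ?_
    rw [tendsto_nhdsWithin_iff]
    exact ⟨bb_tendsto_zero, Eventually.of_forall fun z => bb_pos z⟩
  have h2 : xx = fun z => (bb z)⁻¹ + (-1) := by
    funext z
    have := bb_pos z
    unfold xx; field_simp; ring
  rw [h2]
  exact tendsto_atTop_add_const_right _ _ h1

theorem qq_tendsto : Tendsto qq atTop atTop := by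
  refine tendsto_atTop_mono (f := fun z => xx z / 2) (fun z => ?_) ?_
  · have := vv_pos z
    rw [qq_eq z]; linarith
  · exact xx_tendsto.atTop_div_const (by norm_num)

theorem vv_tendsto : Tendsto vv atTop (𝓝 1) := by
  have h1 : Tendsto (fun z => 1 - 63 / (1 + xx z)) atTop (𝓝 1) := by
    have : Tendsto (fun z => 63 / (1 + xx z)) atTop (𝓝 0) :=
      tendsto_const_nhds.div_atTop (tendsto_atTop_add_const_left _ _ xx_tendsto)
    simpa using (tendsto_const_nhds (x := (1:ℝ))).sub this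
  refine tendsto_of_tendsto_of_tendsto_of_le_of_le h1 tendsto_const_nhds (fun z => ?_)
    (fun z => (vv_lt_one z).le)
  have hx := xx_pos z
  have := one_sub_vv_le z
  simp only
  have h2 : 1 - vv z ≤ 63 / (1 + xx z) := by
    rw [le_div_iff₀ (by positivity)]; linarith
  linarith

theorem kz_tendsto : Tendsto kz atTop (𝓝 4) := by
  have hinv : Tendsto (fun z => (xx z)⁻¹) atTop (𝓝 0) := tendsto_inv_atTop_zero.comp xx_tendsto
  have h1 : Tendsto (fun z => 4 / ((1 + 2 * (vv z * (xx z)⁻¹)) * (1 + 2 * ((1 + vv z) * (xx z)⁻¹))))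
      atTop (𝓝 (4 / ((1 + 2 * (1 * 0)) * (1 + 2 * ((1 + 1) * 0))))) := by
    refine tendsto_const_nhds.div ?_ (by norm_num)
    refine (((vv_tendsto.mul hinv).const_mul 2).const_add 1).mul ?_
    exact ((((vv_tendsto.const_add 1).mul hinv).const_mul 2).const_add 1)
  have h2 : (4:ℝ) / ((1 + 2 * (1 * 0)) * (1 + 2 * ((1 + 1) * 0))) = 4 := by norm_num
  rw [h2] at h1
  refine h1.congr fun z => ?_
  have hx := xx_pos z
  have hv := vv_pos z
  unfold kz
  rw [qq_eq z]
  field_simp
  ring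

theorem az_tendsto : Tendsto az atTop (𝓝 ((4:ℝ) ^ (1 / 3 : ℝ))) :=
  kz_tendsto.rpow_const (Or.inl (by norm_num))

/-- `h - b h'` as a function of `z` -/
theorem dz_hd (z : ℝ) : HasDerivAt (fun z => az z * lz z * bb z ^ 2 / (3 * (1 - bb z)))
    (-(mu z * (bb z * (1 - bb z) * (az z * (1 + xx z) * p1 (xx z) (vv z) / (9 * xx z ^ 2))))) z := by
  have hx := xx_pos z
  have hb := bb_pos z
  have hb1 : 0 < 1 - bb z := by have := bb_lt_one z; linarith
  have h := (((az_hd z).mul (lz_hd z)).mul ((bb_hd2 z).pow 2)).div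
    (((bb_hd2 z).const_sub 1).const_mul 3) (by positivity)
  refine h.congr_deriv ?_
  have e0 : bb z = 1 / (1 + xx z) := by
    unfold xx; field_simp; ring
  have e1 : 1 - bb z = xx z / (1 + xx z) := by
    unfold xx; field_simp; ring
  simp only [Pi.mul_apply, Pi.pow_apply]
  rw [e1, e0]
  unfold lz p1
  rw [qq_eq z]
  push_cast
  generalize xx z = x at *
  generalize vv z = v at *
  generalize az z = a at *
  generalize mu z = m at *
  have hx1 : 0 < 1 + x := by positivity
  field_simp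
  ring

theorem dz_pos (z : ℝ) : 0 < az z * lz z * bb z ^ 2 / (3 * (1 - bb z)) := by
  refine pos_of_deriv (a := z - 1) (f := fun z => az z * lz z * bb z ^ 2 / (3 * (1 - bb z)))
    (fun y _ => dz_hd y) ?_ ?_ (by linarith)
  · intro y _
    have hx := xx_pos y
    have hb := bb_pos y
    have hb1 : 0 < 1 - bb y := by have := bb_lt_one y; linarith
    have hp := p1_pos y
    have ha := az_pos y
    have hm := mu_pos y
    have : 0 < mu y * (bb y * (1 - bb y) * (az y * (1 + xx y) * p1 (xx y) (vv y) / (9 * xx y ^ 2))) := by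
      positivity
    linarith
  · have h1 : Tendsto (fun y => bb y ^ 2 / (3 * (1 - bb y))) atTop (𝓝 0) := by
      have h9 : Tendsto (fun y => bb y ^ 2 / (3 * (1 - bb y))) atTop (𝓝 (0 ^ 2 / (3 * (1 - 0)))) :=
        (bb_tendsto_zero.pow 2).div ((bb_tendsto_zero.const_sub 1).const_mul 3) (by norm_num)
      simpa using h9
    have h2 : Tendsto (fun y => 252 * (bb y ^ 2 / (3 * (1 - bb y)))) atTop (𝓝 0) := by
      simpa using h1.const_mul 252
    refine squeeze_zero_norm (fun y => ?_) h2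
    have hb := bb_pos y
    have hb1 : 0 < 1 - bb y := by have := bb_lt_one y; linarith
    have ha := az_pos y
    have ha2 := az_lt y
    have hl := lz_le y
    have hl2 := lz_ge y
    have hpos : 0 < bb y ^ 2 / (3 * (1 - bb y)) := by positivity
    rw [Real.norm_eq_abs]
    have e : az y * lz y * bb y ^ 2 / (3 * (1 - bb y)) = az y * lz y * (bb y ^ 2 / (3 * (1 - bb y))) := by
      ring
    rw [e, abs_mul, abs_of_pos hpos]
    refine mul_le_mul_of_nonneg_right ?_ hpos.le
    rw [abs_mul, abs_of_pos ha]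
    have : |lz y| ≤ 126 := abs_le.mpr ⟨by linarith, hl⟩
    nlinarith [abs_nonneg (lz y)]

/-- the squared skewness is decreasing in the variance -/
theorem lz_pos (z : ℝ) : 0 < lz z := by
  have h := dz_pos z
  have hb := bb_pos z
  have hb1 : 0 < 1 - bb z := by have := bb_lt_one z; linarith
  have ha := az_pos z
  by_contra hcon
  rw [not_lt] at hcon
  have : az z * lz z * bb z ^ 2 / (3 * (1 - bb z)) ≤ 0 := by
    refine div_nonpos_of_nonpos_of_nonneg ?_ (by positivity)
    have : 0 ≤ az z * bb z ^ 2 := by positivity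
    nlinarith
  linarith

/-- the positive function whose sign is that of `-w''` -/
def gz (z : ℝ) : ℝ := 4 * vv z * qq z * (1 + qq z) - xx z * (1 + xx z)

theorem gz_hd (z : ℝ) : HasDerivAt gz (mu z * (gz z * (2 * qq z * (1 + qq z) + 2 * vv z * (1 + 2 * qq z))
    + xx z * (1 + xx z) * (2 * vv z * (1 + 2 * qq z) - 1 - 2 * xx z))) z := by
  have h := ((((vv_hd z).const_mul 4).mul (qq_hd z)).mul ((qq_hd z).const_add 1)).sub
    ((xx_hd z).mul ((xx_hd z).const_add 1))
  refine h.congr_deriv ?_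
  simp only [Pi.mul_apply, gz]
  rw [qq_eq z]
  ring

theorem gz_aux {x v q : ℝ} (hx : 0 < x) (hv : 0 < v) (hq : q = x / 2 + v)
    (hg : 4 * v * q * (1 + q) - x * (1 + x) ≤ 0) : 2 * v * (1 + 2 * q) - 1 - 2 * x < 0 := by
  by_contra hcon
  rw [not_lt] at hcon
  subst hq
  set y := 1 + x + 2 * v with hy
  have hy1 : 1 + x < y := by rw [hy]; linarith
  have h1 : (1 + 2 * x) / 2 ≤ v * y := by rw [hy]; nlinarith
  have h2 : 4 * v * (x / 2 + v) * (1 + (x / 2 + v)) = v * (y ^ 2 - 1) := by rw [hy]; ring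
  rw [h2] at hg
  have h3 : v * (y ^ 2 - 1) * y ≤ x * (1 + x) * y := mul_le_mul_of_nonneg_right (by linarith) (by linarith)
  have h4 : (1 + 2 * x) / 2 * (y ^ 2 - 1) ≤ v * y * (y ^ 2 - 1) :=
    mul_le_mul_of_nonneg_right h1 (by nlinarith)
  have h5 : (1 + 2 * x) * (y ^ 2 - 1) ≤ 2 * (x * (1 + x) * y) := by nlinarith
  nlinarith [mul_pos hx (show 0 < y - (1 + x) by linarith), mul_pos hx hx]

theorem gz_pos (z : ℝ) : 0 < gz z := by
  obtain ⟨C, hC, hxb⟩ := xx_le
  refine lemmaF (c := 1) (C := (1 + C) ^ 2) (k := 4) one_pos gz_hd ?_ ?_ ?_ z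
  · intro y hy
    have hx := xx_pos y
    have hv := vv_pos y
    have hq := qq_pos y
    have h1 := gz_aux hx hv (qq_eq y) hy
    have h2 : xx y * (1 + xx y) * (2 * vv y * (1 + 2 * qq y) - 1 - 2 * xx y) < 0 :=
      mul_neg_of_pos_of_neg (by positivity) h1
    have h3 : gz y * (2 * qq y * (1 + qq y) + 2 * vv y * (1 + 2 * qq y)) ≤ 0 :=
      mul_nonpos_of_nonpos_of_nonneg hy (by positivity)
    linarith
  · intro y hy0 hy
    have hx := xx_pos y
    have hv := vv_pos y
    have hq := qq_pos y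
    have h1 := gz_aux hx hv (qq_eq y) hy
    have h2 : xx y * (1 + xx y) * (2 * vv y * (1 + 2 * qq y) - 1 - 2 * xx y) < 0 :=
      mul_neg_of_pos_of_neg (by positivity) h1
    have h3 : 0 ≤ (2 * qq y * (1 + qq y) + 2 * vv y * (1 + 2 * qq y)) - 1 * (xx y * qq y - qq y - 1) := by
      have : xx y ≤ 2 * qq y := by rw [qq_eq y]; linarith
      nlinarith [mul_pos hv hq]
    nlinarith [mul_nonneg_of_nonpos_of_nonpos hy (neg_nonpos.mpr h3)]
  · intro y hy
    have hx := xx_pos y
    have hv := vv_pos y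
    have hq := qq_pos y
    have h1 := hxb y hy
    have h2 : 1 + xx y ≤ (1 + C) * (1 + y) ^ 2 := by nlinarith
    have h3 : (1 + xx y) ^ 2 ≤ ((1 + C) * (1 + y) ^ 2) ^ 2 := pow_le_pow_left₀ (by linarith) h2 2
    have h4 : ((1 + C) * (1 + y) ^ 2) ^ 2 = (1 + C) ^ 2 * (1 + y) ^ 4 := by ring
    rw [h4] at h3
    have h5 : 0 < vv y * qq y * (1 + qq y) := by positivity
    unfold gz
    nlinarith

end

end Vale.Agent.P254.One
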