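import Mathlib
import Vale.Agent.P254.One.Prof3

namespace Vale.Agent.P254.One

open MeasureTheory Set Filter Topology

noncomputable section

theorem mm_sq_eq (z : ℝ) : mm z ^ 2 = bb z * (1 + (qq z)⁻¹) := by
  have h1 := bb_pos z
  have h3 := aa_pos z
  unfold qq
  field_simp
  ring

theorem rr_bb_eq (z : ℝ) : rr z ^ 2 * bb z = (1 - bb z) ^ 2 * (1 + (qq z)⁻¹)⁻¹ := by
  have h1 := bb_pos z
  have h2 := mm_pos z
  have h3 := aa_pos z
  have h4 := mm_sq_eq z
  have h5 : bb z = mm z ^ 2 * (1 + (qq z)⁻¹)⁻¹ := by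
    rw [h4]
    have := qq_pos z
    field_simp
  have h6 : rr z * mm z = 1 - bb z := by unfold bb; ring
  calc rr z ^ 2 * bb z = rr z ^ 2 * (mm z ^ 2 * (1 + (qq z)⁻¹)⁻¹) := by rw [← h5]
    _ = (rr z * mm z) ^ 2 * (1 + (qq z)⁻¹)⁻¹ := by ring
    _ = _ := by rw [h6]

theorem wz_eq (z : ℝ) : wz z = -(bb z + mm z ^ 2) / 2
    - Real.log ((1 - bb z) ^ 2 * (1 + (qq z)⁻¹)⁻¹) / 2 := by
  have h1 := bb_pos z
  have h4 := rr_pos z
  rw [← rr_bb_eq z, Real.log_mul (by positivity) h1.ne', Real.log_pow]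
  unfold wz
  push_cast
  ring

theorem mm_sq_tendsto : Tendsto (fun z => mm z ^ 2) atTop (𝓝 0) := by
  have h1 : Tendsto (fun z => bb z * (1 + (qq z)⁻¹)) atTop (𝓝 (0 * (1 + 0))) :=
    bb_tendsto_zero.mul ((tendsto_inv_atTop_zero.comp qq_tendsto).const_add 1)
  rw [zero_mul] at h1
  exact h1.congr fun z => (mm_sq_eq z).symm

theorem wz_tendsto_top : Tendsto wz atTop (𝓝 0) := by
  have h0 : Tendsto (fun z => (1 - bb z) ^ 2 * (1 + (qq z)⁻¹)⁻¹) atTop (𝓝 ((1 - 0) ^ 2 * (1 + 0)⁻¹)) :=
    ((bb_tendsto_zero.const_sub 1).pow 2).mul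
      (((tendsto_inv_atTop_zero.comp qq_tendsto).const_add 1).inv₀ (by norm_num))
  have h1 := h0.log (by norm_num)
  have h2 := (((bb_tendsto_zero.add mm_sq_tendsto).neg).div_const 2).sub (h1.div_const 2)
  have e : (-(0 + 0 : ℝ)) / 2 - Real.log ((1 - 0) ^ 2 * (1 + 0)⁻¹) / 2 = 0 := by norm_num
  rw [e] at h2
  exact h2.congr fun z => (wz_eq z).symm

theorem wz_pos (z : ℝ) : 0 < wz z := by
  refine pos_of_deriv (a := z - 1) (fun y _ => wz_hd y) (fun y _ => ?_) wz_tendsto_top (by linarith)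
  have h1 := mu_pos y
  have h2 := vv_pos y
  have h3 := bb_lt_one y
  have : 0 < mu y * ((1 - bb y) * vv y) := mul_pos h1 (mul_pos (by linarith) h2)
  linarith

theorem wz_lt (z : ℝ) : wz z < bb z := by
  have h : 0 < bb z - wz z := by
    refine pos_of_deriv (a := z - 1) (f := fun z => bb z - wz z)
      (f' := fun z => -(mu z * (1 - bb z)) - mu z * (-((1 - bb z) * vv z)))
      (fun y _ => (bb_hd2 y).sub (wz_hd y)) (fun y _ => ?_) ?_ (show z - 1 < z by linarith)
    · have h1 := mu_pos y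
      have h2 := vv_lt_one y
      have h3 := bb_lt_one y
      have : 0 < mu y * ((1 - bb y) * (1 - vv y)) := mul_pos h1 (mul_pos (by linarith) (by linarith))
      linarith
    · have := bb_tendsto_zero.sub wz_tendsto_top
      rwa [sub_zero] at this
  linarith

theorem wz_anti : StrictAnti wz :=
  strictAnti_of_deriv_neg (fun z => by
    rw [(wz_hd z).deriv]
    have h1 := mu_pos z
    have h2 := vv_pos z
    have h3 := bb_lt_one z
    have : 0 < mu z * ((1 - bb z) * vv z) := mul_pos h1 (mul_pos (by linarith) h2)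
    linarith)

theorem half_gauss : (∫ u in Ioi (0:ℝ), phi u) = Real.sqrt (2 * Real.pi) / 2 := by
  have h := integral_gaussian_Ioi (1 / 2)
  have e : (∫ u in Ioi (0:ℝ), phi u) = ∫ x in Ioi (0:ℝ), Real.exp (-(1/2) * x ^ 2) := by
    refine integral_congr_ae (Eventually.of_forall fun u => ?_)
    simp only [phi]
    ring_nf
  rw [e, h]
  congr 2
  field_simp

theorem G0_neg (z : ℝ) : G0 (-z) = Real.sqrt (2 * Real.pi) - G0 z := by
  have h1 : (∫ u in (0:ℝ)..(-z), phi u) = -∫ u in (0:ℝ)..z, phi u := by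
    have h := intervalIntegral.integral_comp_neg (a := 0) (b := z) (f := phi)
    have e : (fun x => phi (-x)) = phi := by funext x; simp [phi]
    rw [e] at h
    rw [h, neg_zero]
    rw [intervalIntegral.integral_symm]
  unfold G0
  rw [h1, half_gauss]
  ring

theorem G0_tendsto_bot : Tendsto G0 atBot (𝓝 (Real.sqrt (2 * Real.pi))) := by
  have h : Tendsto (fun z => Real.sqrt (2 * Real.pi) - G0 z) atTop (𝓝 (Real.sqrt (2 * Real.pi))) := by
    simpa using G0_tendsto.const_sub (Real.sqrt (2 * Real.pi))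
  have h2 := h.comp tendsto_neg_atBot_atTop
  refine h2.congr fun z => ?_
  simp only [Function.comp]
  rw [← G0_neg (-z), neg_neg]

theorem z_phi_tendsto : Tendsto (fun z : ℝ => z * phi z) atTop (𝓝 0) := by
  have h := Real.tendsto_pow_mul_exp_neg_atTop_nhds_zero 1
  refine squeeze_zero' ?_ ?_ h
  · filter_upwards [eventually_ge_atTop 0] with z hz
    exact mul_nonneg hz (phi_pos z).le
  · filter_upwards [eventually_ge_atTop 2] with z hz
    simp only [pow_one, phi]
    refine mul_le_mul_of_nonneg_left ?_ (by linarith)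
    rw [Real.exp_le_exp]
    nlinarith

theorem z_rr_tendsto_bot : Tendsto (fun z => z * rr z) atBot (𝓝 0) := by
  have h1 : Tendsto (fun z : ℝ => z * phi z) atBot (𝓝 0) := by
    have h := (z_phi_tendsto.comp tendsto_neg_atBot_atTop).neg
    rw [neg_zero] at h
    refine h.congr fun z => ?_
    simp [phi]
  have h2 := h1.div G0_tendsto_bot (by positivity)
  rw [zero_div] at h2
  refine h2.congr fun z => ?_
  simp only [Pi.div_apply, rr]
  ring

theorem rr_tendsto_bot : Tendsto rr atBot (𝓝 0) := by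
  have h1 : Tendsto phi atBot (𝓝 0) := by
    have h := (phi_tendsto.comp tendsto_neg_atBot_atTop)
    refine h.congr fun z => ?_
    simp [phi]
  have h2 := h1.div G0_tendsto_bot (by positivity)
  rw [zero_div] at h2
  exact h2

theorem wz_eq2 (z : ℝ) : wz z = -bb z / 2 - Real.log (bb z) / 2 + z * rr z - rr z ^ 2 / 2
    + Real.log (G0 z) := by
  have h1 := G0_pos z
  have h2 := phi_pos z
  have h3 : Real.log (rr z) = -(z ^ 2 / 2) - Real.log (G0 z) := by
    unfold rr
    rw [Real.log_div h2.ne' h1.ne']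
    unfold phi
    rw [Real.log_exp]
  have h4 : mm z = rr z - z := by rw [rr_eq z]; ring
  unfold wz
  rw [h3, h4]
  ring

theorem wz_tendsto_bot : Tendsto wz atBot
    (𝓝 (1 / 2 * Real.log (2 * Real.pi * Real.exp 1) - 1)) := by
  have hl := bb_tendsto_one.log (by norm_num)
  have hg := G0_tendsto_bot.log (by positivity)
  have h := (((((bb_tendsto_one.neg).div_const 2).sub (hl.div_const 2)).add z_rr_tendsto_bot).sub
    ((rr_tendsto_bot.pow 2).div_const 2)).add hg
  have e : (-(1:ℝ) / 2 - Real.log 1 / 2 + 0 - 0 ^ 2 / 2 + Real.log (Real.sqrt (2 * Real.pi)))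
      = 1 / 2 * Real.log (2 * Real.pi * Real.exp 1) - 1 := by
    rw [Real.log_sqrt (by positivity), Real.log_mul (by positivity) (Real.exp_pos 1).ne', Real.log_exp,
      Real.log_one]
    ring
  rw [e] at h
  exact h.congr fun z => (wz_eq2 z).symm

theorem wz_le_lim (z : ℝ) : wz z ≤ 1 / 2 * Real.log (2 * Real.pi * Real.exp 1) - 1 := by
  refine ge_of_tendsto wz_tendsto_bot ?_
  filter_upwards [eventually_le_atBot z] with y hy
  exact wz_anti.antitone hy

end

end Vale.Agent.P254.One
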