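import Mathlib
import Vale.Agent.P254.One.Prof4
import Vale.Agent.P254.One.C2
import Vale.Agent.P254.L.ZDefs

/-!
P254: the truncated Gaussian profile as an instance of `L.Profile` and `L.WProfile`.
-/

namespace Vale.Agent.P254.One

open MeasureTheory Set Filter Topology

noncomputable section

theorem xx_cont : Continuous xx := continuous_iff_continuousAt.mpr fun z => (xx_hd z).continuousAt
theorem qq_cont : Continuous qq := continuous_iff_continuousAt.mpr fun z => (qq_hd z).continuousAt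
theorem vv_cont : Continuous vv := continuous_iff_continuousAt.mpr fun z => (vv_hd z).continuousAt
theorem az_cont : Continuous az := continuous_iff_continuousAt.mpr fun z => (az_hd z).continuousAt
theorem lz_cont : Continuous lz := continuous_iff_continuousAt.mpr fun z => (lz_hd z).continuousAt

theorem ze_contOn : ContinuousOn ze (Ioo 0 1) := fun _ hb => (ze_cont hb).continuousWithinAt

theorem eq_inv {b : ℝ} (hb : b ∈ Ioo (0:ℝ) 1) : b = 1 / (1 + xx (ze b)) := by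
  rw [xx_ze hb]
  have h0 := hb.1
  have h1 : 0 < 1 - b := by linarith [hb.2]
  field_simp
  ring

theorem one_sub_eq {b : ℝ} (hb : b ∈ Ioo (0:ℝ) 1) : 1 - b = xx (ze b) / (1 + xx (ze b)) := by
  rw [xx_ze hb]
  have h0 := hb.1
  have h1 : 0 < 1 - b := by linarith [hb.2]
  field_simp
  ring

theorem hf2_contOn : ContinuousOn hf2 (Ioo 0 1) := by
  have h : Continuous (fun z => -(az z * (1 + xx z) * p1 (xx z) (vv z) / (9 * xx z ^ 2))) := by
    have h1 := xx_cont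
    have h2 := vv_cont
    have h3 := az_cont
    have h4 : ∀ z, 9 * xx z ^ 2 ≠ 0 := fun z => by have := xx_pos z; positivity
    unfold p1
    fun_prop (disch := assumption)
  exact h.comp_continuousOn ze_contOn

/-- `p = k^{1/3}` -/
def pf (b : ℝ) : ℝ := az (ze b)
def pf1 (b : ℝ) : ℝ := -((az (ze b) * lz (ze b) / 3) / (1 - b))
def pf2 (b : ℝ) : ℝ := (hf2 b - 2 * pf1 b) / b

theorem pf_pos (b : ℝ) : 0 < pf b := az_pos _

theorem pf_hd {b : ℝ} (hb : b ∈ Ioo (0:ℝ) 1) : HasDerivAt pf (pf1 b) b := lift_hd hb (az_hd (ze b))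

theorem hf1_eq {b : ℝ} (hb : b ∈ Ioo (0:ℝ) 1) : hf1 b = pf b + b * pf1 b := by
  have h := (hasDerivAt_id b).mul (pf_hd hb)
  have h2 := (hf_hd hb).unique h
  rw [h2]; simp only [id]; ring

theorem pf1_hd {b : ℝ} (hb : b ∈ Ioo (0:ℝ) 1) : HasDerivAt pf1 (pf2 b) b := by
  have h := ((hf1_hd hb).sub (pf_hd hb)).div (hasDerivAt_id b) hb.1.ne'
  have h3 : (fun b => (hf1 b - pf b) / b) =ᶠ[𝓝 b] pf1 := by
    filter_upwards [isOpen_Ioo.mem_nhds hb] with y hy
    rw [hf1_eq hy]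
    have := hy.1
    field_simp
    ring
  have h4 : HasDerivAt (fun b => (hf1 b - pf b) / b) _ b := h
  refine (h4.congr_of_eventuallyEq h3.symm).congr_deriv ?_
  have h0 := hb.1
  simp only [id, Pi.sub_apply, pf2]
  rw [hf1_eq hb]
  field_simp
  ring

theorem pf1_neg {b : ℝ} (hb : b ∈ Ioo (0:ℝ) 1) : pf1 b < 0 := by
  have h1 := az_pos (ze b)
  have h2 := lz_pos (ze b)
  have h3 : 0 < 1 - b := by linarith [hb.2]
  unfold pf1
  have : 0 < (az (ze b) * lz (ze b) / 3) / (1 - b) := by positivity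
  linarith

/-- `(1-b) |p'| ≤ 42 p` -/
theorem pf1_bound {b : ℝ} (hb : b ∈ Ioo (0:ℝ) 1) : (1 - b) * |pf1 b| ≤ 42 * pf b := by
  have h1 := az_pos (ze b)
  have h2 := lz_le (ze b)
  have h3 : 0 < 1 - b := by linarith [hb.2]
  rw [abs_of_neg (pf1_neg hb)]
  have e : (1 - b) * -pf1 b = az (ze b) * (lz (ze b) / 3) := by
    unfold pf1; field_simp
  rw [e, mul_comm]
  exact mul_le_mul_of_nonneg_right (by linarith) h1.le

theorem pf_cube (b : ℝ) : pf b ^ 3 = kf b := az_cube _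

theorem pf_cube_lt (b : ℝ) : pf b ^ 3 < 4 := by rw [pf_cube]; exact kz_lt _

theorem pf_cube_ge {b : ℝ} (hb : b ∈ Ioo (0:ℝ) 1) : 1 / 2 * (1 - b) ^ 2 ≤ pf b ^ 3 := by
  rw [pf_cube]
  have := kz_ge (ze b)
  rw [bb_ze hb] at this
  unfold kf; linarith

theorem pf_lt (b : ℝ) : pf b < 2 := az_lt _

theorem hf2_eq {b : ℝ} (hb : b ∈ Ioo (0:ℝ) 1) : hf2 b = 2 * pf1 b + b * pf2 b := by
  have := hb.1
  unfold pf2; field_simp; ring

theorem pf1_contOn : ContinuousOn pf1 (Ioo 0 1) := fun _ hb => (pf1_hd hb).continuousAt.continuousWithinAt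

theorem pf2_contOn : ContinuousOn pf2 (Ioo 0 1) :=
  (hf2_contOn.sub (pf1_contOn.const_smul (2:ℝ))).div continuousOn_id (fun b hb => hb.1.ne')

/-- the profile ODE in the form `h'^2/4 + h h''/2 = ((1-b)/p)'` -/
theorem pf_ode {b : ℝ} (hb : b ∈ Ioo (0:ℝ) 1) :
    hf1 b ^ 2 / 4 + hf b * hf2 b / 2 = -(1 / pf b) - (1 - b) * pf1 b / pf b ^ 2 := by
  have hp := pf_pos b
  have h := ((hasDerivAt_id b).const_sub 1).div (pf_hd hb) hp.ne'
  have h3 : (fun b => (1 - b) / pf b) =ᶠ[𝓝 b] mf := by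
    filter_upwards [isOpen_Ioo.mem_nhds hb] with y hy
    rw [mf_eq hy]; rfl
  have h4 : HasDerivAt (fun b => (1 - b) / pf b) _ b := h
  have h5 := (h4.congr_of_eventuallyEq h3.symm).unique (mf_hd hb)
  simp only [id] at h5
  have h6 : hf1 b ^ 2 / 4 + hf b * hf2 b / 2 = hf b * hf2 b / 2 + hf1 b ^ 2 / 4 := by ring
  rw [h6, ← h5]
  field_simp

/-- the truncated Gaussian profile -/
def oneProfile : L.Profile where
  p := pf
  p1 := pf1
  p2 := pf2
  pos x _ := pf_pos x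
  d1 x hx := pf_hd hx
  d2 x hx := pf1_hd hx
  c2 := pf2_contOn

theorem one_h (b : ℝ) : oneProfile.h b = hf b := rfl
theorem one_h1 {b : ℝ} (hb : b ∈ Ioo (0:ℝ) 1) : oneProfile.h1 b = hf1 b := (hf1_eq hb).symm
theorem one_h2 {b : ℝ} (hb : b ∈ Ioo (0:ℝ) 1) : oneProfile.h2 b = hf2 b := (hf2_eq hb).symm

/-- strict concavity of `h` -/
theorem one_h2_neg {b : ℝ} (hb : b ∈ Ioo (0:ℝ) 1) : oneProfile.h2 b < 0 := by
  rw [one_h2 hb]; exact hf2_neg

theorem one_ode {b : ℝ} (hb : b ∈ Ioo (0:ℝ) 1) :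
    oneProfile.h1 b ^ 2 / 4 + oneProfile.h b * oneProfile.h2 b / 2 =
      -(1 / oneProfile.p b) - (1 - b) * oneProfile.p1 b / oneProfile.p b ^ 2 := by
  rw [one_h1 hb, one_h2 hb, one_h]; exact pf_ode hb

theorem one_p1_neg {b : ℝ} (hb : b ∈ Ioo (0:ℝ) 1) : oneProfile.p1 b < 0 := pf1_neg hb

theorem one_p1_bound {b : ℝ} (hb : b ∈ Ioo (0:ℝ) 1) :
    (1 - b) * |oneProfile.p1 b| ≤ 42 * oneProfile.p b := pf1_bound hb

theorem one_p_cube_lt (b : ℝ) : oneProfile.p b ^ 3 < 4 := pf_cube_lt b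

theorem one_p_cube_ge {b : ℝ} (hb : b ∈ Ioo (0:ℝ) 1) :
    1 / 2 * (1 - b) ^ 2 ≤ oneProfile.p b ^ 3 := pf_cube_ge hb

theorem one_p_lt (b : ℝ) : oneProfile.p b < 2 := pf_lt b

/-- `ze → ∞` at `0` -/
theorem ze_tendsto_top : Tendsto ze (𝓝[>] 0) atTop := by
  rw [tendsto_atTop]
  intro C
  have h : Ioo (0:ℝ) (bb C) ∈ 𝓝[>] (0:ℝ) := Ioo_mem_nhdsGT (bb_pos C)
  filter_upwards [h] with y hy
  have hy1 : y ∈ Ioo (0:ℝ) 1 := ⟨hy.1, hy.2.trans (bb_lt_one C)⟩
  by_contra hcon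
  rw [not_le] at hcon
  have := bb_anti hcon
  rw [bb_ze hy1] at this
  linarith [hy.2]

/-- `ze → -∞` at `1` -/
theorem ze_tendsto_bot : Tendsto ze (𝓝[<] 1) atBot := by
  rw [tendsto_atBot]
  intro C
  have h : Ioo (bb C) (1:ℝ) ∈ 𝓝[<] (1:ℝ) := Ioo_mem_nhdsLT (bb_lt_one C)
  filter_upwards [h] with y hy
  have hy1 : y ∈ Ioo (0:ℝ) 1 := ⟨(bb_pos C).trans hy.1, hy.2⟩
  by_contra hcon
  rw [not_le] at hcon
  have := bb_anti hcon
  rw [bb_ze hy1] at this
  linarith [hy.1]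

/-- `p → 4^{1/3}` at `0` -/
theorem pf_tendsto_zero : Tendsto pf (𝓝[>] 0) (𝓝 ((4:ℝ) ^ (1 / 3 : ℝ))) :=
  az_tendsto.comp ze_tendsto_top

theorem kf_tendsto_zero : Tendsto kf (𝓝[>] 0) (𝓝 4) := kz_tendsto.comp ze_tendsto_top

/-- `h → 0` at `0` -/
theorem hf_tendsto_zero : Tendsto hf (𝓝[>] 0) (𝓝 0) := by
  have h1 : Tendsto (fun b : ℝ => b) (𝓝[>] 0) (𝓝 0) := tendsto_nhdsWithin_of_tendsto_nhds tendsto_id
  have := h1.mul pf_tendsto_zero
  rw [zero_mul] at this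
  exact this

theorem wf_tendsto_zero : Tendsto wf (𝓝[>] 0) (𝓝 0) := wz_tendsto_top.comp ze_tendsto_top

theorem wf_tendsto_one : Tendsto wf (𝓝[<] 1)
    (𝓝 (1 / 2 * Real.log (2 * Real.pi * Real.exp 1) - 1)) := wz_tendsto_bot.comp ze_tendsto_bot

theorem wf_pos (b : ℝ) : 0 < wf b := wz_pos _

theorem wf_lt {b : ℝ} (hb : b ∈ Ioo (0:ℝ) 1) : wf b < b := by
  have := wz_lt (ze b)
  rw [bb_ze hb] at this
  exact this

theorem wf_le (b : ℝ) : wf b ≤ 1 / 2 * Real.log (2 * Real.pi * Real.exp 1) - 1 := wz_le_lim _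

/-- strict concavity of `w` -/
theorem wf2_neg {b : ℝ} (hb : b ∈ Ioo (0:ℝ) 1) : wf2 b < 0 := by
  have h1 := gz_pos (ze b)
  have h3 : 0 < 1 - b := by linarith [hb.2]
  unfold wf2
  unfold gz at h1
  have : 0 < (2 * vv (ze b) * qq (ze b) * (1 + qq (ze b)) - xx (ze b) * (1 + xx (ze b)) / 2) / (1 - b) :=
    div_pos (by linarith) h3
  linarith

/-- the diagonal coefficient `c` -/
theorem cf_eq {b : ℝ} (hb : b ∈ Ioo (0:ℝ) 1) : 1 / 4 - b ^ 2 * wf2 b / 2 = cc (ze b) := by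
  have hx := xx_pos (ze b)
  have e1 := one_sub_eq hb
  have e2 : b ^ 2 = 1 / (1 + xx (ze b)) ^ 2 := by
    have h6 : b ^ 2 = (1 / (1 + xx (ze b))) ^ 2 := by rw [← eq_inv hb]
    rw [h6, div_pow, one_pow]
  unfold wf2 cc
  rw [e1, e2]
  field_simp
  ring

theorem cf_ge {b : ℝ} (hb : b ∈ Ioo (0:ℝ) 1) : 1 / 4 ≤ 1 / 4 - b ^ 2 * wf2 b / 2 := by
  have h1 := wf2_neg hb
  have : 0 < b ^ 2 := pow_pos hb.1 2
  nlinarith

theorem cc_bound (z : ℝ) : cc z * (1 - bb z) ≤ 2 := by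
  have hx := xx_pos z
  have hq := qq_pos z
  have hv := vv_pos z
  have hv1 := vv_lt_one z
  have hb := bb_pos z
  have e : 1 - bb z = xx z / (1 + xx z) := by
    unfold xx; field_simp; ring
  have e2 : cc z * (1 - bb z) = qq z * (1 + qq z) * vv z / (1 + xx z) ^ 2 := by
    rw [e]; unfold cc; field_simp
  rw [e2, div_le_iff₀ (by positivity)]
  have h1 : qq z * (1 + qq z) * vv z ≤ qq z * (1 + qq z) * 1 :=
    mul_le_mul_of_nonneg_left hv1.le (by positivity)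
  have h2 : qq z ≤ xx z / 2 + 1 := by rw [qq_eq z]; linarith
  have h3 : qq z * (1 + qq z) ≤ (xx z / 2 + 1) * (1 + (xx z / 2 + 1)) :=
    mul_le_mul h2 (by linarith) (by positivity) (by positivity)
  nlinarith

theorem cf_le {b : ℝ} (hb : b ∈ Ioo (0:ℝ) 1) : (1 / 4 - b ^ 2 * wf2 b / 2) * (1 - b) ≤ 2 := by
  have := cc_bound (ze b)
  rw [bb_ze hb] at this
  rw [cf_eq hb]; exact this

theorem wf_cij {x y : ℝ} (hx : x ∈ Ioo (0:ℝ) 1) (hy : y ∈ Ioo (0:ℝ) 1) :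
    (1 / 4 - x * y * L.dd1 wf1 wf2 x y / 2)
      ≤ Real.sqrt (1 / 4 - x ^ 2 * wf2 x / 2) * Real.sqrt (1 / 4 - y ^ 2 * wf2 y / 2) := by
  rw [cf_eq hx, cf_eq hy]
  have h := cij_le (ze x) (ze y)
  by_cases hxy : x = y
  · subst hxy
    rw [cij_self] at h
    unfold L.dd1
    rw [if_pos rfl, ← cf_eq hx]
    rw [← cf_eq hx] at h
    have e : x * x * wf2 x / 2 = x ^ 2 * wf2 x / 2 := by ring
    rw [e]
    exact h
  · have hz : ze x ≠ ze y := by
      intro e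
      have := congrArg bb e
      rw [bb_ze hx, bb_ze hy] at this
      exact hxy this
    rw [cij_eq_w _ _ hz, bb_ze hx, bb_ze hy] at h
    unfold L.dd1
    rw [if_neg hxy]
    refine le_trans (le_of_eq ?_) h
    unfold wf1
    ring

theorem wf2_contOn : ContinuousOn wf2 (Ioo 0 1) := by
  have h : Continuous (fun z => (2 * vv z * qq z * (1 + qq z) - xx z * (1 + xx z) / 2)) := by
    have h1 := xx_cont
    have h2 := vv_cont
    have h3 := qq_cont
    fun_prop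
  have h2 := (h.comp_continuousOn ze_contOn).div (continuousOn_const.sub continuousOn_id)
    (fun b hb => show (1:ℝ) - id b ≠ 0 by simp only [id]; linarith [hb.2])
  exact h2.neg

/-- the entropy deficit profile -/
def oneW : L.WProfile oneProfile where
  w := wf
  w1 := wf1
  w2 := wf2
  d1 x hx := wf_hd hx
  d2 x hx := wf1_hd hx
  c2 := wf2_contOn
  ode x hx := by
    have h := wf_ode hx
    have h2 : oneProfile.p x ^ 3 = kf x := pf_cube x
    rw [h2]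
    linarith
  cmin := 1 / 4
  cmin_pos := by norm_num
  c_ge x hx := cf_ge hx
  cmax := 2
  c_le x hx := cf_le hx
  w1_pos x _ := wf1_pos x
  w1max := 1
  w1_le x _ := (wf1_lt x).le
  w_nonneg x _ := (wf_pos x).le
  w_le x _ := wf_le x
  cij x hx y hy := wf_cij hx hy

end

end Vale.Agent.P254.One
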